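import Vale.Agent.N144.DefsS
import Mathlib.Topology.Algebra.Module.Cardinality

/-!
A locally uniform limit of lattice correlations is continuous off the axes.
-/

namespace Vale.Agent.N144J

open Set Filter Topology Vale.Agent.P144 Vale.Agent.P144Z Vale.Agent.N144

theorem floor_ev {x : ℝ} (h : ∀ k : ℤ, x ≠ k) : ∀ᶠ y in 𝓝 x, ⌊y⌋ = ⌊x⌋ := by
  filter_upwards [Ioo_mem_nhds (lt_of_le_of_ne (Int.floor_le x) (h _).symm)
    (Int.lt_floor_add_one x)] with y hy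
  exact Int.floor_eq_iff.2 ⟨hy.1.le, hy.2⟩

theorem fl_ev {a : ℝ} {z : ℂ} (h1 : ∀ k : ℤ, z.re / a ≠ k) (h2 : ∀ k : ℤ, z.im / a ≠ k) :
    ∀ᶠ w in 𝓝 z, fl a w = fl a z := by
  have c1 : ContinuousAt (fun w : ℂ => w.re / a) z := by fun_prop
  have c2 : ContinuousAt (fun w : ℂ => w.im / a) z := by fun_prop
  filter_upwards [c1.eventually (floor_ev h1), c2.eventually (floor_ev h2)] with w a b
  exact Prod.ext a b

theorem good_mesh {ι : Type} [Countable ι] (c : ι → ℝ) (hc : ∀ i, c i ≠ 0) :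
    ∃ᶠ a in 𝓝[>] (0 : ℝ), ∀ i, ∀ k : ℤ, c i / a ≠ k := by
  have hS : (range fun q : ι × ℤ => c q.1 / q.2).Countable := countable_range _
  intro h
  obtain ⟨δ, hδ, hs⟩ := (mem_nhdsGT_iff_exists_Ioo_subset).1 h
  obtain ⟨a, a1, a2⟩ := (hS.dense_compl ℝ).inter_open_nonempty _ isOpen_Ioo (nonempty_Ioo.2 hδ)
  refine hs a1 fun i k e => a2 ⟨(i, k), ?_⟩
  have k0 : (k : ℝ) ≠ 0 := e ▸ div_ne_zero (hc i) a1.1.ne'
  show c i / k = a
  rw [div_eq_iff a1.1.ne'] at e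
  rw [e, mul_div_cancel_left₀ _ k0]

theorem cont_of_loc {D : Set ℂ} {E : Fam} {C : Pts → ℝ} (h : LocLim D E C) {n m : ℕ}
    (j : Fin m → Fin 2) {z : (Fin n → ℂ) × (Fin m → ℂ)} (hz : Good D ⟨n, m, z.1, z.2, j⟩)
    (hD : ∀ w ∈ D, w.re ≠ 0 ∧ w.im ≠ 0) :
    ContinuousWithinAt (fun z : (Fin n → ℂ) × (Fin m → ℂ) => C ⟨n, m, z.1, z.2, j⟩)
      {z | Good D ⟨n, m, z.1, z.2, j⟩} z := by
  refine continuousWithinAt_of_locally_uniform_approx_of_continuousWithinAt hz fun u hu => ?_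
  obtain ⟨t, ht, he⟩ := h n m j u hu z hz
  obtain ⟨a, a1, a2⟩ := ((good_mesh (ι := (Fin n ⊕ Fin m) × Bool)
    (fun q => if q.2 then (Sum.elim z.1 z.2 q.1).re else (Sum.elim z.1 z.2 q.1).im) (by
      rintro ⟨i | i, _ | _⟩
      exacts [(hD _ (hz.2.1 i)).2, (hD _ (hz.2.1 i)).1, (hD _ (hz.2.2.1 i)).2,
        (hD _ (hz.2.2.1 i)).1])).and_eventually he).exists
  refine ⟨t, ht, _, ContinuousAt.continuousWithinAt ?_, a2⟩
  refine (continuousAt_const (y := corr a (E a) ⟨n, m, z.1, z.2, j⟩)).congr ?_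
  have e1 : ∀ i, ∀ᶠ w : (Fin n → ℂ) × (Fin m → ℂ) in 𝓝 z, fl a (w.1 i) = fl a (z.1 i) := fun i =>
    (show ContinuousAt (fun w : (Fin n → ℂ) × (Fin m → ℂ) => w.1 i) z by fun_prop).eventually
      (fl_ev (a1 (.inl i, true)) (a1 (.inl i, false)))
  have e2 : ∀ i, ∀ᶠ w : (Fin n → ℂ) × (Fin m → ℂ) in 𝓝 z, fl a (w.2 i) = fl a (z.2 i) := fun i =>
    (show ContinuousAt (fun w : (Fin n → ℂ) × (Fin m → ℂ) => w.2 i) z by fun_prop).eventually
      (fl_ev (a1 (.inr i, true)) (a1 (.inr i, false)))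
  filter_upwards [eventually_all.2 e1, eventually_all.2 e2] with w b1 b2
  simp only [corr, b1, b2]

end Vale.Agent.N144J
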