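import Vale.Agent.P144D.Tame

/-!
Jordan domains and Carathéodory domains; conformal covariance.
-/

namespace Vale.Agent.N144J

open Set Vale.Agent.P144

/-- A bounded domain: bounded, open, connected. -/
def IsDom (D : Set ℂ) : Prop := Bornology.IsBounded D ∧ IsOpen D ∧ IsConnected D

/-- The boundary of `D` is the simple closed curve `c`. -/
def Bounds (c : ℝ → ℂ) (D : Set ℂ) : Prop :=
  Function.Periodic c 1 ∧ InjOn c (Ico 0 1) ∧ frontier D = range c

/-- A Jordan domain: a bounded domain whose boundary is a simple closed curve. -/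
def IsJordan (D : Set ℂ) : Prop := IsDom D ∧ ∃ c, Continuous c ∧ Bounds c D

/-- A Jordan domain whose boundary curve is `C¹` with nonvanishing tangent. -/
def IsJordanC1 (D : Set ℂ) : Prop :=
  IsDom D ∧ ∃ c, ContDiff ℝ 1 c ∧ (∀ t, deriv c t ≠ 0) ∧ Bounds c D

/-- A Carathéodory domain: a bounded domain each of whose boundary points is a limit of points of
the unbounded component of the complement of the closure. -/
def IsCara (D : Set ℂ) : Prop :=
  IsDom D ∧ ∃ W : Set ℂ, IsPreconnected W ∧ ¬ Bornology.IsBounded W ∧ Disjoint W (closure D) ∧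
    frontier D ⊆ closure W

/-- Regular domains: `C¹` Jordan domains, and connected `C¹` domains of any connectivity. -/
def Reg (D : Set ℂ) : Prop := IsJordanC1 D ∨ IsConnected D ∧ P144Z.IsC1 D

open Classical in
/-- All couplings of the perturbed Hamiltonian are nonnegative. -/
def Ferro (J lam : ℝ) (V : Finset Site → ℝ) : Prop :=
  ∀ A, 0 ≤ (if IsEdge A then J else 0) + lam * V A

/-- The images of the points under `φ`. -/
def push (φ : ℂ → ℂ) (p : Pts) : Pts := { p with x := fun i => φ (p.x i), y := fun k => φ (p.y k) }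

/-- The conformal factor: `|φ'|^(1/8)` for each spin, `|φ'|` for each energy. -/
noncomputable def jac (φ : ℂ → ℂ) (p : Pts) : ℝ :=
  (∏ i, ‖deriv φ (p.x i)‖ ^ (1 / 8 : ℝ)) * ∏ k, ‖deriv φ (p.y k)‖

end Vale.Agent.N144J
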