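import Vale.Agent.P144N.Sand
import Vale.Agent.P144.H436.Plane
import Mathlib.Combinatorics.SetFamily.FourFunctions

/-!
Ferromagnetic pair interactions: comparison with the plus boundary condition, and uniqueness of the
plane state when the magnetisation vanishes.
-/

namespace Vale.Agent.N144J

open Finset hiding expect ext
open Filter Topology MeasureTheory Vale.Agent.P144 Vale.Agent.P144Z Vale.Agent.P144N

variable {J lam β : ℝ} {V : Finset Site → ℝ}

open Classical in
theorem en_eq (hV : IsPotential V) (P : Finset Site → Prop) (Λ : Finset Site)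
    (hP : ∀ A, A.Nonempty → P A → (A ∩ Λ).Nonempty) (σ : Config) :
    -β * energy J lam V P σ = ∑ i ∈ U1.firsts V Λ ×ˢ U1.shapes V,
      (if P (U1.sh i.1 i.2) then β * U1.cf J lam V i.2 else 0) * ∏ y ∈ i.2, sp (σ (y + i.1)) := by
  rw [U1.energy_eq hV J lam P (U1.firsts V Λ), neg_mul_neg, sum_product, mul_sum]
  · refine sum_congr rfl fun x _ => ?_
    rw [mul_sum]
    refine sum_congr rfl fun A _ => ?_
    split_ifs
    · ring
    · simp
  · intro x A hA h
    obtain ⟨z, hz⟩ := (((U1.mem_shapes hV).1 hA).2).nonempty hV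
    obtain ⟨y, hy, h⟩ := U1.meets_iff.1 (hP _ ⟨z + x, U1.mem_sh.2 (by simpa using hz)⟩ h)
    exact mem_image.2 ⟨(y + x, y), mem_product.2 ⟨h, U1.mem_hull hA hy⟩, by simp⟩

theorem ext_inter (Λ : Finset Site) (η : Config) (S T : Finset Site) (x : Site) :
    ext Λ η (S ∩ T) x = (ext Λ η S x && ext Λ (fun _ => true) T x) := by
  by_cases h : x ∈ Λ <;> simp [ext, h]

theorem ext_union' (Λ : Finset Site) (η : Config) (S T : Finset Site) (x : Site) :
    ext Λ (fun _ => true) (S ∪ T) x = (ext Λ η S x || ext Λ (fun _ => true) T x) := by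
  by_cases h : x ∈ Λ <;> simp [ext, h]

theorem sp_super (a b c d : Bool) :
    sp a * sp b + sp c * sp d ≤ sp (a && c) * sp (b && d) + sp (a || c) * sp (b || d) := by
  cases a <;> cases b <;> cases c <;> cases d <;> norm_num [sp]

theorem sp_or (a c : Bool) : sp c ≤ sp (a || c) := by
  cases a <;> cases c <;> simp [sp]

/-- Holley's inequality. -/
theorem holley_plus (hV : IsPotential V) (hβ : 0 ≤ β) (hf : ∀ A, 0 ≤ U1.cf J lam V A)
    (hp : ∀ A, V A ≠ 0 → A.card = 2) (b : Option Config) (Λ : Finset Site) {F : Config → ℝ}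
    (h0 : ∀ σ, 0 ≤ F σ) (hF : ∀ σ τ, (∀ x ∈ Λ, σ x = true → τ x = true) → F σ ≤ F τ) :
    gibbs J lam V β b Λ F ≤ gibbs J lam V β (some fun _ => true) Λ F := by
  classical
  have key : ∀ (P : Finset Site → Prop) (η : Config), (∀ A, A.Nonempty → P A → (A ∩ Λ).Nonempty) →
      (∀ A, A.Nonempty → A ⊆ Λ → P A) → P144.expect β (energy J lam V P) Λ η F ≤
        P144.expect β (energy J lam V fun A => (A ∩ Λ).Nonempty) Λ (fun _ => true) F := by
    intro P η h1 h2
    unfold P144.expect
    rw [div_le_div_iff₀ (sum_pos (fun _ _ => Real.exp_pos _) ⟨∅, empty_mem_powerset Λ⟩)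
      (sum_pos (fun _ _ => Real.exp_pos _) ⟨∅, empty_mem_powerset Λ⟩), mul_comm (∑ T ∈ _, F _ * _)
      (∑ T ∈ _, Real.exp (-β * energy J lam V P _))]
    have := Finset.four_functions_theorem Λ
      (f₁ := fun T => F (ext Λ η T) * Real.exp (-β * energy J lam V P (ext Λ η T)))
      (f₂ := fun T => Real.exp (-β * energy J lam V (fun A => (A ∩ Λ).Nonempty)
        (ext Λ (fun _ => true) T)))
      (f₃ := fun T => Real.exp (-β * energy J lam V P (ext Λ η T)))
      (f₄ := fun T => F (ext Λ (fun _ => true) T) * Real.exp (-β * energy J lam V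
        (fun A => (A ∩ Λ).Nonempty) (ext Λ (fun _ => true) T)))
      (fun _ => mul_nonneg (h0 _) (Real.exp_pos _).le) (fun _ => (Real.exp_pos _).le)
      (fun _ => (Real.exp_pos _).le) (fun _ => mul_nonneg (h0 _) (Real.exp_pos _).le)
      (fun S _ T _ => ?_) subset_rfl subset_rfl
    · simpa only [powerset_sups_powerset_self, powerset_infs_powerset_self] using this
    rw [mul_assoc, mul_left_comm _ (F (ext Λ _ (S ∪ T))), ← Real.exp_add, ← Real.exp_add]
    refine mul_le_mul (hF _ _ fun x _ e => by rw [ext_union' Λ η S T, e, Bool.true_or])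
      (Real.exp_le_exp.2 ?_) (Real.exp_pos _).le (h0 _)
    rw [en_eq hV P Λ h1, en_eq hV P Λ h1, en_eq hV _ Λ fun _ _ h => h, en_eq hV _ Λ fun _ _ h => h,
      ← sum_add_distrib, ← sum_add_distrib]
    refine sum_le_sum fun i hi => ?_
    have c0 := mul_nonneg hβ (hf i.2)
    have ht := ((U1.mem_shapes hV).1 (mem_product.1 hi).2).2
    obtain ⟨u, v, huv, e⟩ : ∃ u v, u ≠ v ∧ i.2 = {u, v} := by
      rcases ht with ⟨u, v, h, e⟩ | h
      · exact ⟨u, v, fun e => by simp [e, dsq] at h, e⟩
      · exact card_eq_two.1 (hp _ h)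
    have ne : (U1.sh i.1 i.2).Nonempty := ⟨u + i.1, U1.mem_sh.2 (by simp [e])⟩
    by_cases k : P (U1.sh i.1 i.2)
    · rw [if_pos k, if_pos (h1 _ ne k), ← mul_add, ← mul_add]
      refine mul_le_mul_of_nonneg_left ?_ c0
      simp only [e, prod_pair huv, ext_inter, ext_union' Λ η]
      exact sp_super _ _ _ _
    · rw [if_neg k, zero_mul, zero_mul, zero_add, zero_add]
      refine mul_le_mul_of_nonneg_left ?_ (by split_ifs <;> linarith)
      have k2 : u + i.1 ∉ Λ ∨ v + i.1 ∉ Λ := by
        by_contra hn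
        push Not at hn
        refine k (h2 _ ne fun z hz => ?_)
        rw [U1.mem_sh, e, mem_insert, mem_singleton, sub_eq_iff_eq_add, sub_eq_iff_eq_add] at hz
        rcases hz with rfl | rfl
        exacts [hn.1, hn.2]
      have o : ∀ (R : Finset Site) x, x ∉ Λ → sp (ext Λ (fun _ => true) R x) = 1 := fun R x hx => by
        simp [ext, hx, sp]
      simp only [e, prod_pair huv]
      rcases k2 with k2 | k2
      · rw [o _ _ k2, o _ _ k2, one_mul, one_mul, ext_union' Λ η]
        exact sp_or _ _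
      · rw [o _ _ k2, o _ _ k2, mul_one, mul_one, ext_union' Λ η]
        exact sp_or _ _
  cases b with
  | none => exact key _ _ (fun A ⟨z, hz⟩ hA => ⟨z, mem_inter.2 ⟨hz, hA hz⟩⟩) fun _ _ h => h
  | some η => exact key _ η (fun _ _ h => h) fun A ⟨z, hz⟩ hA => ⟨z, mem_inter.2 ⟨hz, hA hz⟩⟩

theorem sp_le (a : Bool) : -1 ≤ sp a ∧ sp a ≤ 1 := by cases a <;> simp [sp]

theorem prod_abs (A : Finset Site) (σ : Config) : |∏ x ∈ A, sp (σ x)| = 1 := by
  rw [abs_prod]
  exact prod_eq_one fun x _ => by cases σ x <;> simp [sp]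

/-- The dependence on the boundary condition is bounded by the magnetisation. -/
theorem bc_le (hV : IsPotential V) (hβ : 0 ≤ β) (hf : ∀ A, 0 ≤ U1.cf J lam V A)
    (hp : ∀ A, V A ≠ 0 → A.card = 2) (b : Option Config) {Λ A : Finset Site} (hA : A ⊆ Λ) :
    |gibbs J lam V β b Λ (fun σ => ∏ x ∈ A, sp (σ x)) -
      gibbs J lam V β (some fun _ => true) Λ fun σ => ∏ x ∈ A, sp (σ x)| ≤
      2 * ∑ x ∈ A, gibbs J lam V β (some fun _ => true) Λ fun σ => sp (σ x) := by
  classical
  have lin : ∀ (b : Option Config) (s c : ℝ), gibbs J lam V β b Λ (fun σ =>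
      s * ∏ x ∈ A, sp (σ x) + ∑ x ∈ A, sp (σ x) - c) = s * gibbs J lam V β b Λ
        (fun σ => ∏ x ∈ A, sp (σ x)) + ∑ x ∈ A, gibbs J lam V β b Λ (fun σ => sp (σ x)) - c := by
    intro b s c
    rw [UG.gibbs_sub_const]
    have h := UG.gibbs_sum (J := J) (lam := lam) (β := β) (V := V) b Λ univ
      (fun i : Bool => if i then s else 1)
      fun i σ => if i then ∏ x ∈ A, sp (σ x) else ∑ x ∈ A, 1 * sp (σ x)
    simp only [Fintype.sum_bool, if_true, Bool.false_eq_true, if_false, UG.gibbs_sum] at h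
    simp only [one_mul] at h
    rw [h]
  have k : ∀ s : ℝ, |s| = 1 → gibbs J lam V β b Λ (fun σ =>
      s * ∏ x ∈ A, sp (σ x) + ∑ x ∈ A, sp (σ x) - (-1 - A.card)) ≤
      gibbs J lam V β (some fun _ => true) Λ fun σ =>
        s * ∏ x ∈ A, sp (σ x) + ∑ x ∈ A, sp (σ x) - (-1 - A.card) := by
    intro s hs
    have a : ∀ σ : Config, |s * ∏ x ∈ A, sp (σ x)| = 1 := fun σ => by
      rw [abs_mul, hs, prod_abs, one_mul]
    refine holley_plus hV hβ hf hp b Λ (fun σ => ?_) fun σ τ h => ?_
    · have := sum_le_sum fun x (_ : x ∈ A) => (sp_le (σ x)).1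
      simp only [sum_const, nsmul_eq_mul] at this
      linarith [(abs_le.1 (a σ).le).1]
    · have m : ∀ x ∈ A, sp (σ x) ≤ sp (τ x) := fun x hx => by
        cases e : σ x
        · exact (sp_le _).1.trans_eq' (by simp [sp])
        · rw [h x (hA hx) e]
      by_cases he : ∀ x ∈ A, σ x = τ x
      · rw [prod_congr rfl fun x hx => by rw [he x hx], sum_congr rfl fun x hx => by rw [he x hx]]
      · push Not at he
        obtain ⟨i, hi, hne⟩ := he
        have h2 : sp (σ i) + 2 ≤ sp (τ i) := by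
          cases e : σ i
          · cases e' : τ i
            · exact absurd (e.trans e'.symm) hne
            · norm_num [sp]
          · exact absurd (e.trans (h i (hA hi) e).symm) hne
        have h3 := sum_le_sum fun x (hx : x ∈ A.erase i) => m x (mem_of_mem_erase hx)
        rw [← add_sum_erase _ _ hi, ← add_sum_erase A (fun x => sp (τ x)) hi]
        linarith [(abs_le.1 (a σ).le).2, (abs_le.1 (a τ).le).1]
  have one : ∀ (b : Option Config), ∀ x ∈ A, gibbs J lam V β b Λ (fun σ => sp (σ x)) ≤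
      gibbs J lam V β (some fun _ => true) Λ fun σ => sp (σ x) := fun b x hx => by
    have := holley_plus hV hβ hf hp b Λ (F := fun σ => sp (σ x) - -1)
      (fun σ => by linarith [(sp_le (σ x)).1]) fun σ τ h => by
        cases e : σ x
        · have := (sp_le (τ x)).1
          simp only [sp, Bool.false_eq_true, if_false] at this ⊢
          linarith
        · rw [h x (hA hx) e]
    rw [UG.gibbs_sub_const, UG.gibbs_sub_const] at this
    linarith
  have low : ∀ x ∈ A, -gibbs J lam V β (some fun _ => true) Λ (fun σ => sp (σ x)) ≤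
      gibbs J lam V β b Λ fun σ => sp (σ x) := fun x hx => by
    cases b with
    | none =>
      have e := UG.gibbs_free_odd (J := J) (lam := lam) (β := β) hV Λ (F := fun σ => sp (σ x))
        (fun σ τ h => by rw [h x (hA hx)]) fun σ => U1.sp_not _
      have := one none x hx
      linarith
    | some η =>
      have := one (some fun y => !η y) x hx
      have e := UG.gibbs_mul (J := J) (lam := lam) (β := β) (V := V) (some η) Λ (-1)
        fun σ => sp (σ x)
      rw [UG.gibbs_not hV] at this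
      simp only [U1.sp_not] at this
      simp only [neg_one_mul] at e
      linarith
  have a1 := k 1 abs_one
  have a2 := k (-1) (by simp)
  have a3 := sum_le_sum low
  rw [lin, lin] at a1 a2
  rw [sum_neg_distrib] at a3
  rw [abs_le]
  constructor <;> linarith

theorem plus_anti (hV : IsPotential V) (hβ : 0 ≤ β) (hf : ∀ A, 0 ≤ U1.cf J lam V A)
    {Λ Λ' : Finset Site} (h : Λ ⊆ Λ') (A : Finset Site) :
    gibbs J lam V β (some fun _ => true) Λ' (fun σ => ∏ x ∈ A, sp (σ x)) ≤
      gibbs J lam V β (some fun _ => true) Λ fun σ => ∏ x ∈ A, sp (σ x) := by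
  have e : ∀ σ : Config, ∏ x ∈ A, sp (σ x) = ∏ i, sp (σ (A.equivFin.symm i)) := fun σ => by
    rw [← prod_coe_sort, ← A.equivFin.symm.prod_comp]
  simp only [e]
  exact mono_plus hV hβ hf h _

/-- Uniqueness of the plane state. -/
theorem plane_unique (hV : IsPotential V) (hβ : 0 ≤ β) (hf : ∀ A, 0 ≤ U1.cf J lam V A)
    (hp : ∀ A, V A ≠ 0 → A.card = 2) (hm : ∀ x, ∀ ε > (0 : ℝ), ∃ Λ,
      gibbs J lam V β (some fun _ => true) Λ (fun σ => sp (σ x)) < ε) {μ ν : Measure Config}
    (hμ : IsPlaneState J lam V β μ) (hν : IsPlaneState J lam V β ν) : μ = ν := by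
  have sub : ∀ {Λ : ℕ → Finset Site}, (∀ x, ∀ᶠ k in atTop, x ∈ Λ k) → ∀ A : Finset Site,
      ∀ᶠ k in atTop, A ⊆ Λ k := fun h A => (eventually_all_finset A).2 fun x _ => h x
  have pl : ∀ {μ : Measure Config}, IsPlaneState J lam V β μ → ∃ Λ : ℕ → Finset Site,
      (∀ x, ∀ᶠ k in atTop, x ∈ Λ k) ∧ ∀ A : Finset Site, Tendsto (fun k =>
        gibbs J lam V β (some fun _ => true) (Λ k) fun σ => ∏ x ∈ A, sp (σ x)) atTop
        (𝓝 (∫ σ, ∏ x ∈ A, sp (σ x) ∂μ)) := by
    rintro μ ⟨-, -, Λ, b, h1, h2⟩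
    refine ⟨Λ, h1, fun A => ?_⟩
    have t0 : ∀ x, Tendsto (fun k => gibbs J lam V β (some fun _ => true) (Λ k)
        fun σ => sp (σ x)) atTop (𝓝 0) := fun x => by
      refine tendsto_order.2 ⟨fun ε hε => ?_, fun ε hε => ?_⟩
      · filter_upwards [h1 x] with k hk
        have := (abs_nonneg _).trans (bc_le hV hβ hf hp none (singleton_subset_iff.2 hk))
        rw [sum_singleton] at this
        linarith
      · obtain ⟨L, hL⟩ := hm x ε hε
        filter_upwards [sub h1 L] with k hk
        have := plus_anti hV hβ hf hk {x}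
        simp only [prod_singleton] at this
        exact this.trans_lt hL
    have t1 := (tendsto_finsetSum A fun x _ => t0 x).const_mul 2
    rw [sum_const_zero, mul_zero] at t1
    have t2 := (h2 A).sub (squeeze_zero_norm' ((sub h1 A).mono fun k hk =>
      bc_le hV hβ hf hp (b k) hk) t1)
    simpa only [sub_sub_cancel, sub_zero] using t2
  have le : ∀ {μ ν : Measure Config}, IsPlaneState J lam V β μ → IsPlaneState J lam V β ν →
      ∀ A : Finset Site, ∫ σ, ∏ x ∈ A, sp (σ x) ∂μ ≤ ∫ σ, ∏ x ∈ A, sp (σ x) ∂ν := by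
    intro μ ν hμ hν A
    obtain ⟨Λ, a1, a2⟩ := pl hμ
    obtain ⟨Λ', -, b2⟩ := pl hν
    exact ge_of_tendsto' (b2 A) fun k => le_of_tendsto (a2 A)
      ((sub a1 (Λ' k)).mono fun j hj => plus_anti hV hβ hf hj A)
  have := hμ.1
  have := hν.1
  exact H436.measure_ext fun A => le_antisymm (le hμ hν A) (le hν hμ A)

end Vale.Agent.N144J
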