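import Vale.Agent.N144J.Top
import Vale.Agent.N144.C.Sqrt

/-!
Level sets of a conformal map onto the disc; the kernel theorem for Carathéodory domains.
-/

namespace Vale.Agent.N144J

open Set Filter Topology Metric Vale.Agent.P144Z Vale.Agent.N144.C
open scoped Manifold ContDiff

variable {U : Set ℂ} {g h : ℂ → ℂ}

/-- The part of `U` where the map is smaller than `t`. -/
def lv (U : Set ℂ) (g : ℂ → ℂ) (t : ℝ) : Set ℂ := {z | z ∈ U ∧ ‖g z‖ < t}

theorem lv_eq (B : Bi U (ball 0 1) g h) {t : ℝ} (h1 : t < 1) : lv U g t = h '' ball 0 t := by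
  ext z
  constructor
  · rintro ⟨a, b⟩
    exact ⟨g z, mem_ball_zero_iff.2 b, B.li z a⟩
  · rintro ⟨w, hw, rfl⟩
    have := ball_subset_ball h1.le hw
    exact ⟨B.gm this, by rw [B.ri w this]; exact mem_ball_zero_iff.1 hw⟩

theorem lv_conn (B : Bi U (ball 0 1) g h) {t : ℝ} (h0 : 0 < t) (h1 : t < 1) :
    IsConnected (lv U g t) := by
  rw [lv_eq B h1]
  exact ((convex_ball (0 : ℂ) t).isConnected (nonempty_ball.2 h0)).image _
    (B.gd.continuousOn.mono (ball_subset_ball h1.le))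

theorem lv_bij (B : Bi U (ball 0 1) g h) {t : ℝ} (h0 : 0 < t) (h1 : t < 1) :
    BijOn (fun z => g z / t) (lv U g t) (ball 0 1) := by
  have ht : (t : ℂ) ≠ 0 := by exact_mod_cast h0.ne'
  have hn : ‖(t : ℂ)‖ = t := by rw [Complex.norm_real, Real.norm_eq_abs, abs_of_pos h0]
  refine ⟨fun z hz => ?_, fun z hz w hw e => B.inj hz.1 hw.1 ((div_left_inj' ht).1 e),
    fun w hw => ?_⟩
  · rw [mem_ball_zero_iff, norm_div, hn, div_lt_one h0]
    exact hz.2
  · have a : ‖t * w‖ < t := by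
      rw [norm_mul, hn]
      exact mul_lt_of_lt_one_right h0 (mem_ball_zero_iff.1 hw)
    have b : t * w ∈ ball (0 : ℂ) 1 := mem_ball_zero_iff.2 (a.trans h1)
    refine ⟨h (t * w), ⟨B.gm b, by rw [B.ri _ b]; exact a⟩, ?_⟩
    show g (h (t * w)) / t = w
    rw [B.ri _ b, mul_div_cancel_left₀ _ ht]

theorem lv_c1 (B : Bi U (ball 0 1) g h) {t : ℝ} (h0 : 0 < t) (h1 : t < 1) : IsC1 (lv U g t) := by
  have hs : closedBall (0 : ℂ) t ⊆ ball 0 1 := closedBall_subset_ball h1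
  have hK : IsCompact (h '' closedBall 0 t) :=
    (isCompact_closedBall 0 t).image_of_continuousOn (B.gd.continuousOn.mono hs)
  have mK : ∀ z ∈ U, ‖g z‖ ≤ t → z ∈ h '' closedBall 0 t := fun z a b =>
    ⟨g z, mem_closedBall_zero_iff.2 b, B.li z a⟩
  obtain ⟨χ, c0, c1, c2⟩ := exists_contMDiffMap_zero_one_nhds_of_isClosed (n := 1) 𝓘(ℝ, ℂ)
    B.op.isClosed_compl hK.isClosed (disjoint_left.2 (by
      rintro _ hz ⟨w, hw, rfl⟩
      exact hz (B.gm (hs hw))))
  have hχ : ContDiff ℝ 1 χ := χ.contMDiff.contDiff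
  rw [eventually_nhdsSet_iff_forall] at c0 c1
  have out : ∀ z ∉ U, χ z * (t ^ 2 - ‖g z‖ ^ 2) - (1 - χ z) = -1 := fun z hz => by
    rw [(c0 z hz).self_of_nhds]; ring
  refine ⟨hK.isBounded.subset fun z hz => mK z hz.1 hz.2.le,
    fun z => χ z * (t ^ 2 - ‖g z‖ ^ 2) - (1 - χ z), contDiff_iff_contDiffAt.2 fun z => ?_, ?_,
    fun z hz => ?_⟩
  · by_cases hz : z ∈ U
    · have a : ContDiffAt ℝ 1 g z :=
        ((B.fd.analyticAt (B.op.mem_nhds hz)).contDiffAt (n := 1)).restrict_scalars ℝ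
      exact (hχ.contDiffAt.mul (contDiffAt_const.sub (a.norm_sq ℝ))).sub
        (contDiffAt_const.sub hχ.contDiffAt)
    · refine (contDiffAt_const (c := (-1 : ℝ))).congr_of_eventuallyEq ?_
      filter_upwards [c0 z hz] with y hy
      rw [hy]; ring
  · ext z
    constructor
    · rintro ⟨a, b⟩
      show 0 < χ z * (t ^ 2 - ‖g z‖ ^ 2) - (1 - χ z)
      rw [(c1 z (mK z a b.le)).self_of_nhds]
      nlinarith [norm_nonneg (g z)]
    · intro hz
      replace hz : 0 < χ z * (t ^ 2 - ‖g z‖ ^ 2) - (1 - χ z) := hz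
      have a : z ∈ U := by_contra fun a => by rw [out z a] at hz; linarith
      refine ⟨a, by_contra fun b => ?_⟩
      have : χ z * (t ^ 2 - ‖g z‖ ^ 2) ≤ 0 :=
        mul_nonpos_of_nonneg_of_nonpos (c2 z).1 (by nlinarith [not_lt.1 b])
      linarith [(c2 z).2]
  · replace hz : χ z * (t ^ 2 - ‖g z‖ ^ 2) - (1 - χ z) = 0 := hz
    have a : z ∈ U := by_contra fun a => by rw [out z a] at hz; linarith
    have b : ‖g z‖ ≤ t := by_contra fun b => by
      have b' : t ^ 2 - ‖g z‖ ^ 2 < 0 := by nlinarith [not_le.1 b]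
      rcases (c2 z).1.eq_or_lt with e | e
      · rw [← e] at hz; linarith
      · linarith [mul_neg_of_pos_of_neg e b', (c2 z).2]
    have e1 := c1 z (mK z a b)
    rw [e1.self_of_nhds] at hz
    have d := (((B.der a).hasFDerivAt.restrictScalars ℝ).norm_sq.const_sub (t ^ 2))
    have d' : HasFDerivAt (fun z => χ z * (t ^ 2 - ‖g z‖ ^ 2) - (1 - χ z)) _ z :=
      d.congr_of_eventuallyEq (by
        filter_upwards [e1] with y hy
        rw [hy]; ring)
    rw [d'.fderiv]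
    intro e
    have := congrArg (fun L : ℂ →L[ℝ] ℝ => L (g z / deriv g z)) e
    simp [div_mul_cancel₀ _ (B.ne a)] at this
    rw [this] at hz
    simp at hz
    exact h0.ne' hz

theorem exists_rm (hU : IsOpen U) (hR : P153.TOP.RMT.RDom U) {R : ℝ} (hb : U ⊆ closedBall 0 R)
    {z₀ : ℂ} (hz : z₀ ∈ U) : ∃ g h, Bi U (ball 0 1) g h ∧ g z₀ = 0 := by
  obtain ⟨g, a1, a2, a3, -, a5⟩ := P153.TOP.RMT.exists_onto_disc hU hR (fun e =>
    NormedSpace.unbounded_univ ℝ ℂ (isBounded_closedBall.subset (e ▸ hb))) hz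
  obtain ⟨h, B⟩ := exists_bi hU isOpen_ball a1 (a3 ▸ a2.bijOn_image)
  exact ⟨g, h, B, a5⟩

/-- A locally uniform limit of maps that omit a value omits it, unless it is constant. -/
theorem avoid {V : Set ℂ} (hV : IsOpen V) (hc : IsPreconnected V) {l : Filter ℕ} [l.NeBot]
    {F : ℕ → ℂ → ℂ} {f : ℂ → ℂ} (hF : TendstoLocallyUniformlyOn F f l V)
    (hd : ∀ k, DifferentiableOn ℂ (F k) V) {w z₀ : ℂ} (h0 : ∀ᶠ k in l, ∀ z ∈ V, F k z ≠ w)
    (hz : z₀ ∈ V) (hw : f z₀ ≠ w) : ∀ z ∈ V, f z ≠ w := by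
  intro z hzV
  have hf := (hF.differentiableOn (.of_forall hd) hV).analyticOnNhd hV
  have h1 : TendstoLocallyUniformlyOn (fun k z => F k z - w) (fun z => f z - w) l V :=
    (uniformContinuous_id.sub uniformContinuous_const).comp_tendstoLocallyUniformlyOn hF
  refine sub_ne_zero.1 (P153.TOP.RMT.hurwitz hV h1 (.of_forall fun k => (hd k).sub_const w) hzV
    (h0.mono fun k hk z hz => sub_ne_zero.2 (hk z hz)) fun e => hw ?_)
  exact hf.eqOn_of_preconnected_of_eventuallyEq analyticOnNhd_const hc hzV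
    (e.mono fun y hy => sub_eq_zero.1 hy) hz

/-- The kernel theorem. -/
theorem kernel {D : Set ℂ} (hD : IsCara D) : ∃ (l : Filter ℕ) (_ : l.NeBot) (U : ℕ → Set ℂ)
    (G H : ℕ → ℂ → ℂ) (g h : ℂ → ℂ), Bi D (ball 0 1) g h ∧
      (∀ k, Bi (U k) (ball 0 1) (G k) (H k) ∧ closure D ⊆ U k) ∧
      (∀ z ∈ D, Tendsto (fun k => G k z) l (𝓝 (g z)) ∧
        Tendsto (fun k => deriv (G k) z) l (𝓝 (deriv g z))) ∧
      ∀ t < (1 : ℝ), ∀ᶠ k in l, lv (U k) (G k) t ⊆ D := by
  obtain ⟨hD, W, w1, w2, w3, w4⟩ := hD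
  obtain ⟨R, U, hR, hU, hW⟩ := exists_nbhd hD w1 w2 w3
  obtain ⟨z₀, hz₀⟩ := hD.2.2.nonempty
  have DU : ∀ k, D ⊆ U k := fun k => subset_closure.trans (hU k).2.2.1
  choose G H B G0 using fun k => exists_rm (hU k).1 (hU k).2.1 (hU k).2.2.2 (DU k hz₀)
  have hRc : (R : ℂ) ≠ 0 := by exact_mod_cast hR.ne'
  have Gd : ∀ k, DifferentiableOn ℂ (G k) D := fun k => (B k).fd.mono (DU k)
  obtain ⟨g, hg⟩ := P153.TOP.RMT.exists_limit hD.2.1 (hyperfilter ℕ) G Gd
    fun k z hz => (mem_ball_zero_iff.1 ((B k).fm (DU k hz))).le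
  obtain ⟨h', hh'⟩ := P153.TOP.RMT.exists_limit isOpen_ball (hyperfilter ℕ)
    (fun k w => H k w / R) (fun k => (B k).gd.div_const _) fun k w hw => by
      rw [norm_div, Complex.norm_real, Real.norm_eq_abs, abs_of_pos hR, div_le_one hR]
      exact mem_closedBall_zero_iff.1 ((hU k).2.2.2 ((B k).gm hw))
  have hh : TendstoLocallyUniformlyOn H (fun w => h' w * R) (hyperfilter ℕ : Filter ℕ)
      (ball 0 1) := by
    refine ((uniformContinuous_mul_right' (R : ℂ)).comp_tendstoLocallyUniformlyOn hh').congr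
      fun k w _ => ?_
    exact div_mul_cancel₀ _ hRc
  generalize (fun w => h' w * R) = h at hh
  have le : (hyperfilter ℕ : Filter ℕ) ≤ atTop := by
    rw [← Nat.cofinite_eq_atTop]; exact hyperfilter_le_cofinite
  have gd := hg.differentiableOn (.of_forall Gd) hD.2.1
  have hd := hh.differentiableOn (.of_forall fun k => (B k).gd) isOpen_ball
  have g0 : g z₀ = 0 := tendsto_nhds_unique (hg.tendsto_at hz₀) (by simp [G0])
  have b0 : (0 : ℂ) ∈ ball (0 : ℂ) 1 := mem_ball_self one_pos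
  have h0 : h 0 = z₀ := tendsto_nhds_unique (hh.tendsto_at b0) (by
    have : ∀ k, H k 0 = z₀ := fun k => by rw [← G0 k, (B k).li _ (DU k hz₀)]
    simp [this])
  have gm : MapsTo g D (ball 0 1) := fun z hz => by
    by_contra hn
    refine avoid hD.2.1 hD.2.2.isPreconnected hg Gd (w := g z)
      (.of_forall fun k y hy e => hn (e ▸ (B k).fm (DU k hy))) hz₀ (fun e => hn ?_) z hz rfl
    rw [← e, g0]
    exact b0
  have li : ∀ z ∈ D, h (g z) = z := fun z hz => tendsto_nhds_unique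
    (hh.tendsto_comp (hd.continuousOn _ (gm hz)) (gm hz) (tendsto_nhdsWithin_iff.2
      ⟨hg.tendsto_at hz, .of_forall fun k => (B k).fm (DU k hz)⟩))
    (by simp [fun k => (B k).li z (DU k hz)])
  have ho : IsOpen (h '' ball 0 1) := by
    rcases (hd.analyticOnNhd isOpen_ball).is_constant_or_isOpen
      (convex_ball (0 : ℂ) 1).isPreconnected with ⟨w, hw⟩ | e
    · exfalso
      have : D ⊆ {w} := fun z hz => by rw [← li z hz]; exact hw _ (gm hz)
      exact (infinite_of_mem_nhds z₀ (hD.2.1.mem_nhds hz₀)) ((finite_singleton w).subset this)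
    · exact e _ subset_rfl isOpen_ball
  have hdis : Disjoint W (h '' ball 0 1) := by
    refine disjoint_left.2 ?_
    rintro _ hw ⟨y, hy, rfl⟩
    refine avoid isOpen_ball (convex_ball (0 : ℂ) 1).isPreconnected hh (fun k => (B k).gd)
      (w := h y) (((hW _ hw).filter_mono le).mono fun k hk z hz e => hk (e ▸ (B k).gm hz)) b0
      (fun e => disjoint_left.1 w3 hw ?_) y hy rfl
    rw [← e, h0]
    exact subset_closure hz₀
  have hm : MapsTo h (ball 0 1) D := by
    refine mapsTo_iff_image_subset.2 (((convex_ball (0 : ℂ) 1).isPreconnected.image _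
      hd.continuousOn).subset_of_closure_inter_subset hD.2.1 ⟨z₀, ⟨0, b0, h0⟩, hz₀⟩ ?_)
    rintro z ⟨a, b⟩
    by_contra hn
    exact disjoint_left.1 (hdis.closure_left ho) (w4 (by rw [hD.2.1.frontier_eq]; exact ⟨a, hn⟩)) b
  have ri : ∀ w ∈ ball (0 : ℂ) 1, g (h w) = w := fun w hw => tendsto_nhds_unique
    (hg.tendsto_comp (gd.continuousOn _ (hm hw)) (hm hw) (tendsto_nhdsWithin_iff.2
      ⟨hh.tendsto_at hw, (hh.tendsto_at hw).eventually (hD.2.1.mem_nhds (hm hw))⟩))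
    (by simp [fun k => (B k).ri w hw])
  refine ⟨hyperfilter ℕ, inferInstance, U, G, H, g, h,
    ⟨hD.2.1, isOpen_ball, gd, hd, gm, hm, li, ri⟩, fun k => ⟨B k, (hU k).2.2.1⟩,
    fun z hz => ⟨hg.tendsto_at hz, (hg.deriv (.of_forall Gd) hD.2.1).tendsto_at hz⟩,
    fun t ht => ?_⟩
  have hs : closedBall (0 : ℂ) t ⊆ ball 0 1 := closedBall_subset_ball ht
  obtain ⟨δ, hδ, hs'⟩ := ((isCompact_closedBall (0 : ℂ) t).image_of_continuousOn
    (hd.continuousOn.mono hs)).exists_thickening_subset_open hD.2.1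
    ((image_mono hs).trans hm.image_subset)
  filter_upwards [Metric.tendstoUniformlyOn_iff.1
    ((tendstoLocallyUniformlyOn_iff_forall_isCompact isOpen_ball).1 hh _ hs
      (isCompact_closedBall 0 t)) δ hδ] with k hk
  rw [lv_eq (B k) ht]
  rintro _ ⟨w, hw, rfl⟩
  exact hs' (mem_thickening_iff.2 ⟨h w, mem_image_of_mem _ (ball_subset_closedBall hw),
    by rw [dist_comm]; exact hk w (ball_subset_closedBall hw)⟩)

end Vale.Agent.N144J
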