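import Vale.Agent.N144J.Top
import Vale.Agent.P144U.Stmt

/-!
A Jordan domain with a regular `C¹` boundary curve lies locally above a graph of small slope.
-/

namespace Vale.Agent.N144J

open Set Filter Topology Metric Vale.Agent.P144Z

theorem strip_pre {a b : ℝ → ℝ} (ha : Continuous a) (hb : Continuous b) {p q : ℝ}
    (h : ∀ x ∈ Ioo p q, a x < b x) :
    IsPreconnected {ζ : ℂ | ζ.re ∈ Ioo p q ∧ a ζ.re < ζ.im ∧ ζ.im < b ζ.re} := by
  have e : {ζ : ℂ | ζ.re ∈ Ioo p q ∧ a ζ.re < ζ.im ∧ ζ.im < b ζ.re} =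
      (fun x : ℝ × ℝ => (x.1 : ℂ) + (a x.1 + x.2 * (b x.1 - a x.1) : ℝ) * Complex.I) ''
        (Ioo p q ×ˢ Ioo 0 1) := by
    ext ζ
    constructor
    · rintro ⟨h1, h2, h3⟩
      have := sub_pos.2 (h _ h1)
      refine ⟨(ζ.re, (ζ.im - a ζ.re) / (b ζ.re - a ζ.re)), ⟨h1, div_pos (sub_pos.2 h2) this,
        (div_lt_one this).2 (by linarith)⟩, ?_⟩
      simp only [div_mul_cancel₀ _ this.ne', add_sub_cancel, Complex.re_add_im]
    · rintro ⟨⟨x, s⟩, ⟨h1, h2, h3⟩, rfl⟩
      have := sub_pos.2 (h _ h1)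
      simp only [mem_ofPred_eq, Complex.add_re, Complex.ofReal_re, Complex.mul_re, Complex.I_re,
        mul_zero, Complex.ofReal_im, Complex.I_im, mul_one, sub_self, add_zero, Complex.add_im,
        Complex.mul_im, zero_add]
      exact ⟨h1, by nlinarith, by nlinarith⟩
  rw [e]
  exact ((convex_Ioo p q).prod (convex_Ioo 0 1)).isPreconnected.image _ (by fun_prop)

theorem IsJordanC1.jordan {D : Set ℂ} (h : IsJordanC1 D) : IsJordan D := by
  obtain ⟨hD, c, hc, -, hb⟩ := h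
  exact ⟨hD, c, hc.continuous, hb⟩

/-- Near a regular point the curve is a graph. -/
theorem curve_graph {c : ℝ → ℂ} (hc : ContDiff ℝ 1 c) (hp : Function.Periodic c 1)
    (hi : InjOn c (Ico 0 1)) {t : ℝ} (ht : deriv c t ≠ 0) :
    ∃ (u : ℂ) (g : ℝ → ℝ) (ρ : ℝ), ‖u‖ = 1 ∧ 0 < ρ ∧ (∀ x y, |g x - g y| ≤ 1 / 2 * |x - y|) ∧
      g (u * c t).re = (u * c t).im ∧ ∀ w : ℂ, |(u * w).re - (u * c t).re| < ρ →
        |(u * w).im - (u * c t).im| < ρ → (w ∈ range c ↔ g (u * w).re = (u * w).im) := by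
  set L := ‖deriv c t‖ with hL
  have L0 : 0 < L := norm_pos_iff.2 ht
  obtain ⟨u, u1, u2⟩ : ∃ u : ℂ, ‖u‖ = 1 ∧ u * deriv c t = L :=
    ⟨L / deriv c t, by rw [norm_div, Complex.norm_real, Real.norm_eq_abs, abs_of_pos L0,
      div_self L0.ne'], div_mul_cancel₀ _ ht⟩
  have u0 : u ≠ 0 := fun e => by simp [e] at u1
  have hd : ∀ s, HasDerivAt c (deriv c s) s := fun s =>
    (hc.differentiable one_ne_zero s).hasDerivAt
  have cd : Continuous fun s => u * deriv c s - L := by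
    have := hc.continuous_deriv le_rfl
    fun_prop
  obtain ⟨δ', hδ', hb⟩ := Metric.continuousAt_iff.1 (cd.continuousAt (x := t)) (L / 3)
    (by positivity)
  obtain ⟨δ, δ0, δ1, δ2⟩ : ∃ δ : ℝ, 0 < δ ∧ δ < δ' ∧ δ < 1 / 2 :=
    ⟨min (δ' / 2) (1 / 4), by positivity, (min_le_left _ _).trans_lt (by linarith),
      (min_le_right _ _).trans_lt (by norm_num)⟩
  have mv : ∀ s ∈ Icc (t - δ) (t + δ), ∀ s' ∈ Icc (t - δ) (t + δ),
      ‖(u * c s' - L * s') - (u * c s - L * s)‖ ≤ L / 3 * ‖s' - s‖ := fun s hs s' hs' => by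
    refine (convex_Icc _ _).norm_image_sub_le_of_norm_hasDerivWithin_le
      (f := fun s : ℝ => u * c s - L * s) (f' := fun s => u * deriv c s - L)
      (fun x _ => HasDerivAt.hasDerivWithinAt ?_) (fun x hx => ?_) hs hs'
    · have := ((hd x).const_mul u).fun_sub ((Complex.ofRealCLM.hasDerivAt (x := x)).const_mul (L : ℂ))
      simpa using this
    · have := hb (x := x) (by rw [Real.dist_eq, abs_lt]; constructor <;> linarith [hx.1, hx.2])
      rw [u2, sub_self, dist_zero_right] at this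
      exact this.le
  have mx : ∀ s ∈ Icc (t - δ) (t + δ), ∀ s' ∈ Icc (t - δ) (t + δ),
      |(u * c s').re - (u * c s).re - L * (s' - s)| ≤ L / 3 * |s' - s| ∧
      |(u * c s').im - (u * c s).im| ≤ L / 3 * |s' - s| := fun s hs s' hs' => by
    have a := (Complex.abs_re_le_norm _).trans (mv s hs s' hs')
    have b := (Complex.abs_im_le_norm _).trans (mv s hs s' hs')
    simp only [Complex.sub_re, Complex.sub_im, ← Complex.ofReal_mul, Complex.ofReal_re,
      Complex.ofReal_im, sub_zero, Real.norm_eq_abs] at a b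
    exact ⟨by rw [show (u * c s').re - (u * c s).re - L * (s' - s) =
      (u * c s').re - L * s' - ((u * c s).re - L * s) by ring]; exact a, b⟩
  have sl : ∀ s ∈ Icc (t - δ) (t + δ), ∀ s' ∈ Icc (t - δ) (t + δ),
      |(u * c s').im - (u * c s).im| ≤ 1 / 2 * |(u * c s').re - (u * c s).re| :=
    fun s hs s' hs' => by
      obtain ⟨a, b⟩ := mx s hs s' hs'
      have := abs_sub_abs_le_abs_sub (L * (s' - s)) ((u * c s').re - (u * c s).re)
      rw [abs_sub_comm (L * (s' - s)), abs_mul, abs_of_pos L0] at this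
      linarith
  have tI : t ∈ Icc (t - δ) (t + δ) := ⟨by linarith, by linarith⟩
  obtain ⟨g, g1, g2⟩ := LipschitzOnWith.extend_real (K := 1 / 2)
    (f := fun x => (u * c (Function.invFunOn (fun s => (u * c s).re) (Icc (t - δ) (t + δ)) x)).im)
    (s := (fun s => (u * c s).re) '' Icc (t - δ) (t + δ)) (LipschitzOnWith.of_dist_le_mul (by
      intro x hx y hy
      have := sl _ (Function.invFunOn_mem hy) _ (Function.invFunOn_mem hx)
      rw [Function.invFunOn_eq hx, Function.invFunOn_eq hy] at this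
      simpa [Real.dist_eq] using this))
  have g3 : ∀ s ∈ Icc (t - δ) (t + δ), g (u * c s).re = (u * c s).im := fun s hs => by
    have hx : ∃ a ∈ Icc (t - δ) (t + δ), (fun s => (u * c s).re) a = (u * c s).re := ⟨s, hs, rfl⟩
    have := sl _ hs _ (Function.invFunOn_mem hx)
    rw [Function.invFunOn_eq hx, sub_self, abs_zero, mul_zero] at this
    rw [← g2 hx]
    exact sub_eq_zero.1 (abs_nonpos_iff.1 this)
  have hK : IsCompact (c '' Icc (t + δ) (t + 1 - δ)) := isCompact_Icc.image hc.continuous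
  obtain ⟨η, η0, hη⟩ := Metric.isOpen_iff.1 hK.isClosed.isOpen_compl (c t) (by
    rintro ⟨s, hs, e⟩
    have := per_inj hp hi s t e (by rw [abs_lt]; constructor <;> linarith [hs.1, hs.2])
    linarith [hs.1])
  refine ⟨u, g, min (η / 2) (2 * L / 3 * δ), u1, by positivity, fun x y => by
    simpa [Real.dist_eq] using g1.dist_le_mul x y, g3 t tI, fun w w1 w2 => ⟨?_, fun e => ?_⟩⟩
  · rintro ⟨s, rfl⟩
    have hB : c s ∈ ball (c t) η := by
      rw [mem_ball, dist_eq_norm, ← one_mul ‖_‖, ← u1, ← norm_mul, mul_sub]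
      have := Complex.norm_le_abs_re_add_abs_im (u * c s - u * c t)
      rw [Complex.sub_re, Complex.sub_im] at this
      linarith [min_le_left (η / 2) (2 * L / 3 * δ)]
    have e := per_fract hp (t - δ) s
    rw [← e] at hB ⊢
    have f0 := Int.fract_nonneg (s - (t - δ))
    have f1 := Int.fract_lt_one (s - (t - δ))
    refine g3 _ ⟨by linarith, by_contra fun h => hη hB ⟨_, ⟨(not_le.1 h).le, by linarith⟩, rfl⟩⟩
  · have a := abs_le.1 (mx _ tI _ (right_mem_Icc.2 (by linarith))).1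
    have b := abs_le.1 (mx _ (left_mem_Icc.2 (by linarith)) _ tI).1
    rw [add_sub_cancel_left, abs_of_pos δ0] at a
    rw [sub_sub_cancel, abs_of_pos δ0] at b
    have w3 := abs_lt.1 (w1.trans_le (min_le_right _ _))
    obtain ⟨s, hs, es⟩ := intermediate_value_Icc (a := t - δ) (b := t + δ) (by linarith)
      (f := fun s => (u * c s).re) (by have := hc.continuous; fun_prop)
      (show (u * w).re ∈ Icc _ _ from ⟨by linarith [b.1, w3.1], by linarith [a.1, w3.2]⟩)
    refine ⟨s, mul_left_cancel₀ u0 (Complex.ext es ?_)⟩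
    rw [← e, ← g3 s hs]
    exact congrArg g es

theorem IsJordanC1.lip {D : Set ℂ} (h : IsJordanC1 D) : IsLip (1 / 2) D := by
  obtain ⟨-, W, -, -, w3, w4⟩ := h.jordan.cara
  obtain ⟨hD, c, hc, hc', hp, hi, hf⟩ := h
  refine ⟨hD.2.1, hD.1, fun z hz => ?_⟩
  obtain ⟨t, rfl⟩ := hf ▸ hz
  obtain ⟨u, g, ρ, u1, ρ0, g1, g2, g3⟩ := curve_graph hc hp hi (hc' t)
  have u0 : u ≠ 0 := fun e => by simp [e] at u1
  have gc : Continuous g := (LipschitzWith.of_dist_le_mul (K := 1 / 2) fun x y => by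
    simpa [Real.dist_eq] using g1 x y).continuous
  set x := (u * c t).re
  set y := (u * c t).im
  have gb : ∀ s ∈ Ioo (x - ρ) (x + ρ), y - ρ < g s ∧ g s < y + ρ := fun s hs => by
    have a := abs_le.1 (g1 s x)
    have b : |s - x| < ρ := abs_lt.2 ⟨by linarith [hs.1], by linarith [hs.2]⟩
    constructor <;> linarith [a.1, a.2]
  have hP := (Homeomorph.mulLeft₀ u u0).isPreconnected_preimage.2
    (strip_pre gc (continuous_const (y := y + ρ)) fun s hs => (gb s hs).2)
  have hM := (Homeomorph.mulLeft₀ u u0).isPreconnected_preimage.2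
    (strip_pre (continuous_const (y := y - ρ)) gc fun s hs => (gb s hs).1)
  have inB : ∀ w ∈ ball (c t) ρ, |(u * w).re - x| < ρ ∧ |(u * w).im - y| < ρ := fun w hw => by
    rw [mem_ball, dist_eq_norm, ← one_mul ‖_‖, ← u1, ← norm_mul, mul_sub] at hw
    exact ⟨(Complex.abs_re_le_norm _).trans_lt hw, (Complex.abs_im_le_norm _).trans_lt hw⟩
  have side : ∀ S : Set ℂ, IsPreconnected S → (∀ w ∈ S, w ∉ range c) → ∀ w ∈ S, w ∈ D → S ⊆ D :=
    fun S h1 h2 w a b => h1.subset_of_closure_inter_subset hD.2.1 ⟨w, a, b⟩ fun v hv => by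
      by_contra hn
      exact h2 v hv.2 (by rw [← hf, hD.2.1.frontier_eq]; exact ⟨hv.1, hn⟩)
  have up : ∀ v ∈ ball (c t) ρ, ∀ w ∈ ball (c t) ρ, g (u * v).re < (u * v).im →
      g (u * w).re < (u * w).im → v ∈ D → w ∈ D := fun v hv w hw a b d => by
    have k : ∀ v ∈ ball (c t) ρ, g (u * v).re < (u * v).im → (u * v).re ∈ Ioo (x - ρ) (x + ρ) ∧
        g (u * v).re < (u * v).im ∧ (u * v).im < y + ρ := fun v hv a => by
      have a1 := abs_lt.1 (inB v hv).1
      have a2 := abs_lt.1 (inB v hv).2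
      exact ⟨⟨by linarith [a1.1], by linarith [a1.2]⟩, a, by linarith [a2.2]⟩
    refine side _ hP (fun s hs e => ?_) v (k v hv a) d (k w hw b)
    obtain ⟨s1, s2, s3⟩ : (u * s).re ∈ Ioo (x - ρ) (x + ρ) ∧ g (u * s).re < (u * s).im ∧
      (u * s).im < y + ρ := hs
    exact s2.ne ((g3 s (abs_lt.2 ⟨by linarith [s1.1], by linarith [s1.2]⟩)
      (abs_lt.2 ⟨by linarith [(gb _ s1).1], by linarith⟩)).1 e)
  have dn : ∀ v ∈ ball (c t) ρ, ∀ w ∈ ball (c t) ρ, (u * v).im < g (u * v).re →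
      (u * w).im < g (u * w).re → v ∈ D → w ∈ D := fun v hv w hw a b d => by
    have k : ∀ v ∈ ball (c t) ρ, (u * v).im < g (u * v).re → (u * v).re ∈ Ioo (x - ρ) (x + ρ) ∧
        y - ρ < (u * v).im ∧ (u * v).im < g (u * v).re := fun v hv a => by
      have a1 := abs_lt.1 (inB v hv).1
      have a2 := abs_lt.1 (inB v hv).2
      exact ⟨⟨by linarith [a1.1], by linarith [a1.2]⟩, by linarith [a2.1], a⟩
    refine side _ hM (fun s hs e => ?_) v (k v hv a) d (k w hw b)
    obtain ⟨s1, s2, s3⟩ : (u * s).re ∈ Ioo (x - ρ) (x + ρ) ∧ y - ρ < (u * s).im ∧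
      (u * s).im < g (u * s).re := hs
    exact s3.ne' ((g3 s (abs_lt.2 ⟨by linarith [s1.1], by linarith [s1.2]⟩)
      (abs_lt.2 ⟨by linarith, by linarith [(gb _ s1).2]⟩)).1 e)
  have off : ∀ w ∈ ball (c t) ρ, (w ∈ D ∨ w ∈ W) → g (u * w).re ≠ (u * w).im := fun w hw a e => by
    have b : w ∈ frontier D := hf ▸ (g3 w (inB w hw).1 (inB w hw).2).2 e
    rcases a with a | a
    · rw [hD.2.1.frontier_eq] at b
      exact b.2 a
    · exact disjoint_left.1 w3 a (frontier_subset_closure b)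
  obtain ⟨v, v1, v2⟩ := mem_closure_iff.1 (frontier_subset_closure hz) _ isOpen_ball
    (mem_ball_self ρ0)
  obtain ⟨v', v1', v2'⟩ := mem_closure_iff.1 (w4 hz) _ isOpen_ball (mem_ball_self ρ0)
  have nv : v' ∉ D := fun e => disjoint_left.1 w3 v2' (subset_closure e)
  rcases lt_or_gt_of_ne (off v v1 (Or.inl v2)) with a | a
  · refine ⟨ρ, ρ0, u, u1, g, g1, fun w hw => ⟨fun d => ?_, fun e => up v v1 w hw a e v2⟩⟩
    rcases lt_or_gt_of_ne (off w hw (Or.inl d)) with b | b
    · exact b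
    · rcases lt_or_gt_of_ne (off v' v1' (Or.inr v2')) with e | e
      exacts [absurd (up v v1 v' v1' a e v2) nv, absurd (dn w hw v' v1' b e d) nv]
  · refine ⟨ρ, ρ0, -u, by rw [norm_neg, u1], fun s => -g (-s), fun s s' => ?_, fun w hw => ?_⟩
    · have := g1 (-s') (-s)
      rwa [show -s' - -s = s - s' by ring, show g (-s') - g (-s) = -g (-s) - -g (-s') by ring] at this
    · simp only [neg_mul, Complex.neg_re, Complex.neg_im, neg_neg, neg_lt_neg_iff]
      refine ⟨fun d => ?_, fun e => dn v v1 w hw a e v2⟩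
      rcases lt_or_gt_of_ne (off w hw (Or.inl d)) with b | b
      · rcases lt_or_gt_of_ne (off v' v1' (Or.inr v2')) with e | e
        exacts [absurd (up w hw v' v1' b e d) nv, absurd (dn v v1 v' v1' a e v2) nv]
      · exact b

end Vale.Agent.N144J
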