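import Vale.Agent.N144J.Sand
import Vale.Agent.N144J.Lip
import Vale.Agent.N144J.Fkg
import Vale.Agent.N144.W.Fin2

/-!
Universality in regular domains, and of the spin correlations in Carathéodory domains.
-/

namespace Vale.Agent.N144J

open Set Filter Topology Metric Vale.Agent.P144 Vale.Agent.P144Z Vale.Agent.N144 Vale.Agent.N144.C
open Vale.Agent.P144Y (Nice)
open Vale.Agent.P144N

variable {J : ℝ} {CD : Set ℂ → BC → Pts → ℝ} {b : BC} {D D' : Set ℂ} {p : Pts}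

theorem Reg.nice (h : Reg D) (hb : StdBC b) : Nice D b := by
  rcases h with h | h
  · obtain ⟨h1, h2, h3⟩ := h.lip
    refine ⟨h.1.2.2, Or.inl ⟨Or.inr (Or.inr (Or.inl ⟨h1, h2, fun z hz => ?_⟩)), hb⟩⟩
    obtain ⟨r, hr, u, hu, g, hg, e⟩ := h3 z hz
    exact ⟨r, hr, u, hu, g, fun s t => (hg s t).trans
      (mul_le_mul_of_nonneg_right (by norm_num) (abs_nonneg _)), e⟩
  · exact nice_c1 h.1 h.2 hb

theorem Reg.isOpen (h : Reg D) : IsOpen D := h.elim (fun h => h.1.2.1) fun h => c1_open h.2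

theorem reg_ball : Reg (ball (0 : ℂ) 1) := by
  have B : Bi (ball 0 2) (ball 0 1) (fun z => z / 2) fun z => 2 * z :=
    ⟨isOpen_ball, isOpen_ball, by fun_prop, by fun_prop, fun z hz => by
      rw [mem_ball_zero_iff] at hz ⊢
      rw [norm_div, Complex.norm_two]
      linarith, fun z hz => by
      rw [mem_ball_zero_iff] at hz ⊢
      rw [norm_mul, Complex.norm_two]
      linarith, fun z _ => by ring, fun z _ => by ring⟩
  have e : lv (ball 0 2) (fun z => z / 2) (1 / 2) = ball 0 1 := by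
    ext z
    simp only [lv, mem_ofPred_eq, mem_ball_zero_iff, norm_div, Complex.norm_two]
    exact ⟨fun h => by linarith [h.2], fun h => ⟨by linarith, by linarith⟩⟩
  exact Or.inr (e ▸ ⟨lv_conn B (by norm_num) (by norm_num), lv_c1 B (by norm_num) (by norm_num)⟩)

theorem lim_of_loc {E : Fam} {C : Pts → ℝ} (h : LocLim D E C) (hp : Good D p) : Lim E p (C p) :=
  (h p.n p.m p.j).tendsto_at (a := (p.x, p.y)) hp

theorem bij_of_bi {g h : ℂ → ℂ} (B : Bi D D' g h) : BijOn g D D' :=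
  ⟨B.fm, B.inj, fun w hw => ⟨h w, B.gm hw, B.ri w hw⟩⟩

/-- The limit of the critical nearest-neighbour correlation. -/
noncomputable def lim0 (J : ℝ) (D : Set ℂ) (b : BC) (p : Pts) : ℝ :=
  limUnder (𝓝[>] 0) fun a => corr a (crit J D b a) p

theorem Base.lim0 (H : Base J CD) (h : Nice D b) (hp : Good D p) : lim0 J D b p = CD D b p :=
  (lim_of_loc (H.loc D b h) hp).limUnder_eq

/-- The value in a Carathéodory domain, and the limit for ferromagnetic couplings. -/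
theorem Base.cara (H : Base J CD) (hJ : 0 < J) (hD : IsCara D) : ∃ g h, Bi D (ball 0 1) g h ∧
    ∀ b, StdBC b → ∀ p, Good D p → p.m = 0 →
      N144J.lim0 J D b p = jac g p * CD (ball 0 1) b (push g p) ∧
      Lim (crit J D b) p (N144J.lim0 J D b p) ∧
      ∀ lam V β Z, IsPotential V → 0 ≤ β → Ferro J lam V → (∀ Q, IsConnected Q → IsC1 Q →
        Good Q p → Lim (inDom J lam V β Q b) p (Z * CD Q b p)) →
        Lim (inDom J lam V β D b) p (Z * N144J.lim0 J D b p) := by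
  obtain ⟨g, h, B, a⟩ := H.approx hD
  refine ⟨g, h, B, fun b hb p hp hm => ?_⟩
  have l := sandwich (Z := 1) pot0 (kc_nonneg hJ) (cf0 hJ) hb hm hD.1 (fun Q h1 h2 h3 => by
    rw [one_mul]; exact lim_of_loc (H.loc Q b (nice_c1 h1 h2 hb)) h3) (a b hb p hp)
  rw [one_mul] at l
  have e : N144J.lim0 J D b p = jac g p * CD (ball 0 1) b (push g p) := l.limUnder_eq
  exact ⟨e, e ▸ l, fun lam V β Z hV hβ hf hL => e ▸ sandwich hV hβ hf hb hm hD.1 hL (a b hb p hp)⟩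

/-- The formula with an arbitrary conformal map onto the disc. -/
theorem Base.disc (H : Base J CD) (hJ : 0 < J) (hb : StdBC b) (hp : Good D p)
    (hD : Reg D ∨ IsCara D ∧ p.m = 0) {φ : ℂ → ℂ} (h1 : DifferentiableOn ℂ φ D)
    (h2 : BijOn φ D (ball 0 1)) :
    N144J.lim0 J D b p = jac φ p * CD (ball 0 1) b (push φ p) := by
  rcases hD with hD | ⟨hD, hm⟩
  · rw [H.lim0 (hD.nice hb) hp]
    exact H.cov D b (hD.nice hb) p hp _ φ (nice_ball 0 hb) h1 h2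
  · obtain ⟨g, h, B, a⟩ := H.cara hJ hD
    obtain ⟨e1, e2⟩ := jac_comp (χ := φ) (ψ := fun w => φ (h w)) hp B.op B.op' B.fd
      (h1.comp B.gd B.gm) B.fm fun z hz => by rw [B.li z hz]
    rw [(a b hb p hp hm).1, e1, e2, mul_assoc, ← H.cov _ b (nice_ball 0 hb) _
      (good_bij hp (bij_of_bi B)) _ (fun w => φ (h w)) (nice_ball 0 hb) (h1.comp B.gd B.gm)
      (h2.comp (bij_of_bi B.symm))]

theorem Base.covar (H : Base J CD) (hJ : 0 < J) (hb : StdBC b) (hp : Good D p)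
    (hD : Reg D ∨ IsCara D ∧ p.m = 0) (hD' : Reg D' ∨ IsCara D' ∧ p.m = 0) {φ : ℂ → ℂ}
    (h1 : DifferentiableOn ℂ φ D) (h2 : BijOn φ D D') :
    N144J.lim0 J D b p = jac φ p * N144J.lim0 J D' b (push φ p) := by
  have o : ∀ {D : Set ℂ}, Reg D ∨ IsCara D ∧ p.m = 0 → IsOpen D := fun h =>
    h.elim Reg.isOpen fun h => h.1.1.2.1
  have k : ∀ g : ℂ → ℂ, DifferentiableOn ℂ g D' → BijOn g D' (ball 0 1) →
      N144J.lim0 J D b p = jac φ p * N144J.lim0 J D' b (push φ p) := fun g g1 g2 => by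
    obtain ⟨e1, e2⟩ := jac_comp (χ := fun z => g (φ z)) hp (o hD) (o hD') h1 g1 h2.mapsTo
      fun _ _ => rfl
    rw [H.disc hJ hb hp hD (φ := fun z => g (φ z)) (g1.comp h1 h2.mapsTo) (g2.comp h2),
      H.disc hJ hb (good_bij hp h2) hD' g1 g2, e1, e2, mul_assoc]
  rcases hD' with r' | c'
  · rcases hD with r | c
    · rw [H.lim0 (r.nice hb) hp, H.lim0 (r'.nice hb) (good_bij hp h2)]
      exact H.cov D b (r.nice hb) p hp _ φ (r'.nice hb) h1 h2
    · obtain ⟨g, h, B, -⟩ := H.cara hJ c.1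
      obtain ⟨ψ, B'⟩ := exists_bi B.op r'.isOpen h1 h2
      exact k (fun w => g (ψ w)) (B.fd.comp B'.gd B'.gm) ((bij_of_bi B).comp (bij_of_bi B'.symm))
  · obtain ⟨g, h, B, -⟩ := H.cara hJ c'.1
    exact k g B.fd (bij_of_bi B)

/-- The magnetisation of the plus state vanishes. -/
theorem mag_small {lam β Z Ze : ℝ} {V : Finset Site → ℝ} (H : Base J CD)
    (h : LocLim (ball 0 1) (inDom J lam V β (ball 0 1) (some fun _ _ => true))
      fun p => Z ^ p.n * Ze ^ p.m * CD (ball 0 1) (some fun _ _ => true) p) (x : Site) {ε : ℝ}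
    (hε : 0 < ε) : ∃ Λ, gibbs J lam V β (some fun _ => true) Λ (fun σ => sp (σ x)) < ε := by
  have g : ∀ z ∈ ball (0 : ℂ) 1, Good (ball 0 1) ⟨1, 0, fun _ => z, ![], ![]⟩ := fun z hz =>
    ⟨one_pos, fun _ => hz, fun i => i.elim0, by
      rintro (i | i) (j | j) -
      exacts [congrArg _ (Subsingleton.elim _ _), j.elim0, i.elim0, i.elim0]⟩
  have t0 : Tendsto (fun a : ℝ => (⟨a * x.1, a * x.2⟩ : ℂ)) (𝓝[>] 0) (𝓝 0) := by
    have : Continuous fun a : ℝ => (a : ℂ) * ⟨x.1, x.2⟩ := by fun_prop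
    refine ((this.tendsto' 0 0 (by simp)).mono_left nhdsWithin_le_nhds).congr fun a => ?_
    apply Complex.ext <;> simp
  have t1 := (h 1 0 ![]).tendsto_comp (x := (fun _ => 0, ![]))
    (g := fun a : ℝ => (fun _ => (⟨a * x.1, a * x.2⟩ : ℂ), ![]))
    ((H.cont (Or.inr (Or.inl rfl)) ![] (z := (fun _ => 0, ![]))
      (g 0 (mem_ball_self one_pos))).const_mul _) (g 0 (mem_ball_self one_pos))
    (tendsto_nhdsWithin_iff.2 ⟨(tendsto_pi_nhds.2 fun _ => t0).prodMk_nhds tendsto_const_nhds,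
      (t0.eventually (ball_mem_nhds 0 one_pos)).mono fun a ha => g _ ha⟩)
  have t2 : Tendsto (fun a : ℝ => a ^ (1 / 8 : ℝ)) (𝓝[>] 0) (𝓝 0) := by
    have := (Real.continuousAt_rpow_const 0 (1 / 8) (Or.inr (by norm_num))).tendsto
    rw [Real.zero_rpow (by norm_num)] at this
    exact this.mono_left nhdsWithin_le_nhds
  have t3 := t2.mul t1
  rw [zero_mul] at t3
  obtain ⟨a, a1, a2⟩ := ((t3.eventually (gt_mem_nhds hε)).and self_mem_nhdsWithin).exists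
  refine ⟨disc (ball 0 1) a, lt_of_eq_of_lt ?_ a1⟩
  have a0 : 0 < a := a2
  have e : fl a ⟨a * x.1, a * x.2⟩ = x := by
    simp only [fl, mul_div_cancel_left₀ _ a0.ne', Int.floor_intCast]
  simp only [inDom, Option.map_some, corr_spin, e, Finset.prod_const, Finset.card_univ,
    Fintype.card_fin, pow_one]
  rw [← mul_assoc, ← Real.rpow_add a0]
  simp

theorem fin : ∀ J > 0, ∃ (C : Pts → ℝ) (CD : Set ℂ → Option (ℝ → Config) → Pts → ℝ),
    (∃ E₀, PlaneFam J 0 (fun _ => 0) (Kc / J) E₀) ∧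
    (∀ p, Good univ p → (∀ E₀, PlaneFam J 0 (fun _ => 0) (Kc / J) E₀ → Lim E₀ p (C p)) ∧
      (∀ j, C { p with j := j } = C p) ∧ (p.m = 0 → Even p.n → 0 < C p) ∧
      ∀ w t : ℂ, w ≠ 0 → C p = jac (fun z => w * z + t) p * C (push (fun z => w * z + t) p)) ∧
    (∀ D b p, StdBC b → Good D p → Reg D ∨ IsCara D ∧ p.m = 0 →
      Lim (crit J D b) p (CD D b p) ∧ (∀ j, CD D b { p with j := j } = CD D b p) ∧
      (p.m = 0 → (b = none ∧ Even p.n ∨ b = some fun _ _ => true) → 0 < CD D b p) ∧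
      ∀ D' φ, Reg D' ∨ IsCara D' ∧ p.m = 0 → DifferentiableOn ℂ φ D → BijOn φ D D' →
        CD D b p = jac φ p * CD D' b (push φ p)) ∧
    (Reg (ball 0 1) ∧ ∀ D, (IsJordan D → IsCara D) ∧
      (IsCara D → ∃ φ : ℂ → ℂ, DifferentiableOn ℂ φ D ∧ BijOn φ D (ball 0 1))) ∧
    ∀ V, IsPotential V → ∃ lam₀ > 0, ∃ β Zσ Zε : ℝ → ℝ,
      AnalyticOnNhd ℝ β (Ioo (-lam₀) lam₀) ∧ AnalyticOnNhd ℝ Zσ (Ioo (-lam₀) lam₀) ∧
      AnalyticOnNhd ℝ Zε (Ioo (-lam₀) lam₀) ∧ β 0 = Kc / J ∧ Zσ 0 = 1 ∧ Zε 0 = 1 ∧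
      ∀ lam : ℝ, |lam| < lam₀ → 0 < β lam ∧ 0 < Zσ lam ∧ 0 < Zε lam ∧
        (∃ μ, IsPlaneState J lam V (β lam) μ ∧ IsTorusState J lam V (β lam) μ ∧
          (∀ p, Good univ p → Lim (famOf μ) p (Zσ lam ^ p.n * Zε lam ^ p.m * C p)) ∧
          (Ferro J lam V → (∀ A, V A ≠ 0 → A.card = 2) →
            ∀ ν, IsPlaneState J lam V (β lam) ν → ν = μ)) ∧
        ∀ D b p, StdBC b → Good D p → Reg D ∨ Ferro J lam V ∧ IsCara D ∧ p.m = 0 →
          Lim (inDom J lam V (β lam) D b) p (Zσ lam ^ p.n * Zε lam ^ p.m * CD D b p) := by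
  intro J hJ
  obtain ⟨C, CD, h1, -, h3, h4, h⟩ := WL.fin4 J hJ
  have H : Base J CD := ⟨fun D b hD => (h4 D b hD).1,
    fun D b hD p hp D' φ => ((h4 D b hD).2 p hp).2.2.2 D' φ⟩
  refine ⟨C, lim0 J, h1, fun p hp => ⟨(h3 p hp).1, (h3 p hp).2.1, (h3 p hp).2.2.1,
    fun w t hw => ?_⟩, fun D b p hb hp hD => ⟨?_, fun j => ?_, fun hm hb' => ?_,
      fun D' φ hD' => H.covar hJ hb hp hD hD'⟩, ⟨reg_ball, fun D => ⟨IsJordan.cara, fun hD => ?_⟩⟩,
    fun V hV => ?_⟩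
  · have d : ∀ z, deriv (fun z => w * z + t) z = w := fun z => by simp
    rw [(h3 p hp).2.2.2 w t hw]
    simp only [jac, d, Finset.prod_const, Finset.card_univ, Fintype.card_fin, push]
  · rcases hD with r | c
    · rw [H.lim0 (r.nice hb) hp]
      exact lim_of_loc (H.loc D b (r.nice hb)) hp
    · obtain ⟨g, h, -, a⟩ := H.cara hJ c.1
      exact (a b hb p hp c.2).2.1
  · rcases hD with r | c
    · rw [H.lim0 (r.nice hb) hp, H.lim0 (p := { p with j := j }) (r.nice hb) hp]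
      exact ((h4 D b (r.nice hb)).2 p hp).2.1 j
    · obtain ⟨n, m, x, y, j'⟩ := p
      obtain rfl : m = 0 := c.2
      rw [Subsingleton.elim j j']
  · rcases hD with r | c
    · rw [H.lim0 (r.nice hb) hp]
      exact ((h4 D b (r.nice hb)).2 p hp).2.2.1 hm hb'
    · obtain ⟨g, h, B, a⟩ := H.cara hJ c.1
      rw [(a b hb p hp c.2).1]
      exact mul_pos (mul_pos
        (Finset.prod_pos fun i _ => Real.rpow_pos_of_pos (norm_pos_iff.2 (B.ne (hp.2.1 i))) _)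
        (Finset.prod_pos fun i _ => norm_pos_iff.2 (B.ne (hp.2.2.1 i))))
        (((h4 _ b (nice_ball 0 hb)).2 _ (good_bij hp (bij_of_bi B))).2.2.1 hm hb')
  · obtain ⟨g, h, B, -⟩ := H.cara hJ hD
    exact ⟨g, B.fd, bij_of_bi B⟩
  obtain ⟨lam₀, h0, β, Zσ, Zε, a1, a2, a3, a4, a5, a6, h⟩ := h (1 / 2) (by norm_num) V hV
  refine ⟨lam₀, h0, β, Zσ, Zε, a1, a2, a3, a4, a5, a6, fun lam hl => ?_⟩
  obtain ⟨b1, b2, b3, ⟨μ, m1, m2, m3, -⟩, h⟩ := h lam hl
  have L : ∀ D b, StdBC b → Reg D → LocLim D (inDom J lam V (β lam) D b)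
      fun p => Zσ lam ^ p.n * Zε lam ^ p.m * CD D b p := fun D b hb r =>
    ((h D b (r.elim (fun r => Or.inr ⟨r.lip, hb⟩) fun r =>
      Or.inl ⟨Or.inl r.2, Or.inl hb⟩)).2.2.1 (r.nice hb)).1
  refine ⟨b1, b2, b3, ⟨μ, m1, m2, m3, fun hf hp ν hν => plane_unique hV b1.le hf hp
    (fun x ε hε => mag_small H (L _ _ (Or.inr (Or.inl rfl)) reg_ball) x hε) hν m1⟩,
    fun D b p hb hp hD => ?_⟩
  rcases hD with r | ⟨hf, c, hm⟩
  · rw [H.lim0 (r.nice hb) hp]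
    exact lim_of_loc (L D b hb r) hp
  · obtain ⟨g, h, -, a⟩ := H.cara hJ c
    exact (a b hb p hp hm).2.2 lam V _ _ hV b1.le hf fun Q q1 q2 q3 =>
      lim_of_loc (L Q b hb (Or.inr ⟨q1, q2⟩)) q3

end Vale.Agent.N144J
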