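import Vale.Agent.N144J.Lev
import Vale.Agent.N144J.Cont
import Vale.Agent.P144N.Sand
import Vale.Agent.P144Y.Main

/-!
The spin correlations in a Carathéodory domain lie between those of two level domains.
-/

namespace Vale.Agent.N144J

open Set Filter Topology Metric Vale.Agent.P144 Vale.Agent.P144Z Vale.Agent.N144 Vale.Agent.N144.C
open Vale.Agent.P144Y (Nice)
open Vale.Agent.P144N

/-- The boundary conditions. -/
abbrev BC := Option (ℝ → Config)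

/-- What is used of the critical nearest-neighbour model in regular domains. -/
structure Base (J : ℝ) (CD : Set ℂ → BC → Pts → ℝ) : Prop where
  loc : ∀ D b, Nice D b → LocLim D (crit J D b) (CD D b)
  cov : ∀ D b, Nice D b → ∀ p, Good D p → ∀ D' φ, Nice D' b → DifferentiableOn ℂ φ D →
    BijOn φ D D' → CD D b p = jac φ p * CD D' b (push φ p)

variable {J : ℝ} {CD : Set ℂ → BC → Pts → ℝ} {b : BC} {D D' D'' : Set ℂ} {p : Pts}

theorem nice_c1 (h : IsConnected D) (h' : IsC1 D) (hb : StdBC b) : Nice D b :=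
  ⟨h, Or.inl ⟨Or.inl h', hb⟩⟩

theorem nice_ball (c : ℂ) (hb : StdBC b) : Nice (ball c 1) b :=
  ⟨(convex_ball c 1).isConnected (nonempty_ball.2 one_pos),
    Or.inl ⟨Or.inr (Or.inl ⟨isOpen_ball, isBounded_ball, convex_ball c 1⟩), hb⟩⟩

theorem good_push {φ : ℂ → ℂ} (hp : Good D p) (h1 : InjOn φ D) (h2 : ∀ i, φ (p.x i) ∈ D')
    (h3 : ∀ k, φ (p.y k) ∈ D') : Good D' (push φ p) := by
  have m : ∀ s, Sum.elim p.x p.y s ∈ D := by
    rintro (i | i)
    exacts [hp.2.1 i, hp.2.2.1 i]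
  have e : ∀ s, Sum.elim (push φ p).x (push φ p).y s = φ (Sum.elim p.x p.y s) := by
    rintro (i | i) <;> rfl
  exact ⟨hp.1, h2, h3, fun s t h => hp.2.2.2 (h1 (m s) (m t) (by rw [← e, ← e, h]))⟩

theorem good_bij {φ : ℂ → ℂ} (hp : Good D p) (h : BijOn φ D D') : Good D' (push φ p) :=
  good_push hp h.injOn (fun i => h.mapsTo (hp.2.1 i)) fun i => h.mapsTo (hp.2.2.1 i)

theorem jac_comp {φ ψ χ : ℂ → ℂ} (hp : Good D p) (hD : IsOpen D) (hD' : IsOpen D')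
    (h1 : DifferentiableOn ℂ φ D) (h2 : DifferentiableOn ℂ ψ D') (hm : MapsTo φ D D')
    (e : ∀ z ∈ D, χ z = ψ (φ z)) :
    jac χ p = jac φ p * jac ψ (push φ p) ∧ push χ p = push ψ (push φ p) := by
  have d : ∀ z ∈ D, ‖deriv χ z‖ = ‖deriv φ z‖ * ‖deriv ψ (φ z)‖ := fun z hz => by
    rw [← norm_mul, mul_comm, ← deriv_comp z (h2.differentiableAt (hD'.mem_nhds (hm hz)))
      (h1.differentiableAt (hD.mem_nhds hz))]
    refine congrArg _ (EventuallyEq.deriv_eq ?_)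
    filter_upwards [hD.mem_nhds hz] with y hy using e y hy
  constructor
  · simp only [jac, push, fun i => d _ (hp.2.1 i), fun i => d _ (hp.2.2.1 i),
      Real.mul_rpow (norm_nonneg _) (norm_nonneg _), Finset.prod_mul_distrib]
    exact mul_mul_mul_comm _ _ _ _
  · simp only [push, fun i => e _ (hp.2.1 i), fun i => e _ (hp.2.2.1 i)]

theorem Base.cont (H : Base J CD) (hb : StdBC b) {n m : ℕ} (j : Fin m → Fin 2)
    {z : (Fin n → ℂ) × (Fin m → ℂ)} (hz : Good (ball 0 1) ⟨n, m, z.1, z.2, j⟩) :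
    ContinuousWithinAt (fun z : (Fin n → ℂ) × (Fin m → ℂ) => CD (ball 0 1) b ⟨n, m, z.1, z.2, j⟩)
      {z | Good (ball 0 1) ⟨n, m, z.1, z.2, j⟩} z := by
  obtain ⟨u, u1, u2⟩ : ∃ u : ℂ, u.re = 2 ∧ u.im = 2 := ⟨⟨2, 2⟩, rfl, rfl⟩
  have bij : BijOn (fun w : ℂ => w + u) (ball 0 1) (ball u 1) :=
    ⟨fun w hw => by simpa using hw, fun w _ v _ e => add_right_cancel e,
      fun w hw => ⟨w - u, by simpa [dist_eq_norm] using hw, sub_add_cancel _ _⟩⟩
  have c := cont_of_loc (H.loc _ b (nice_ball u hb)) j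
    (z := (fun i => z.1 i + u, fun i => z.2 i + u)) (good_bij hz bij) fun w hw => by
      rw [mem_ball, dist_eq_norm] at hw
      have a := abs_lt.1 ((Complex.abs_re_le_norm _).trans_lt hw)
      have b := abs_lt.1 ((Complex.abs_im_le_norm _).trans_lt hw)
      simp only [Complex.sub_re, Complex.sub_im, u1, u2] at a b
      constructor <;> intro e <;> linarith [a.1, b.1]
  have c2 := ContinuousWithinAt.comp (f := fun z : (Fin n → ℂ) × (Fin m → ℂ) =>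
    ((fun i => z.1 i + u, fun i => z.2 i + u) : (Fin n → ℂ) × (Fin m → ℂ)))
    (s := {z | Good (ball 0 1) ⟨n, m, z.1, z.2, j⟩}) c (by fun_prop) fun y hy => good_bij hy bij
  have e : ∀ y : (Fin n → ℂ) × (Fin m → ℂ), Good (ball 0 1) ⟨n, m, y.1, y.2, j⟩ →
      CD (ball 0 1) b ⟨n, m, y.1, y.2, j⟩ = CD (ball u 1) b
        ⟨n, m, fun i => y.1 i + u, fun i => y.2 i + u, j⟩ := fun y hy => by
    rw [H.cov _ b (nice_ball 0 hb) _ hy _ _ (nice_ball u hb) (by fun_prop) bij]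
    simp [jac, push]
  exact c2.congr e (e z hz)

/-- Level domains from inside and from outside with almost the same correlation. -/
theorem Base.approx (H : Base J CD) (hD : IsCara D) : ∃ g h, Bi D (ball 0 1) g h ∧
    ∀ b, StdBC b → ∀ p, Good D p → ∀ ε > 0, ∃ D₁ D₂, (IsConnected D₁ ∧ IsC1 D₁) ∧
      (IsConnected D₂ ∧ IsC1 D₂) ∧ D₁ ⊆ D ∧ D ⊆ D₂ ∧ Good D₁ p ∧
      |CD D₁ b p - jac g p * CD (ball 0 1) b (push g p)| < ε ∧
      |CD D₂ b p - jac g p * CD (ball 0 1) b (push g p)| < ε := by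
  obtain ⟨l, _, U, G, K, g, h, B, hB, hG, hL⟩ := kernel hD
  refine ⟨g, h, B, fun b hb p hp ε hε => ?_⟩
  have t1 : Tendsto (fun q : ℝ × ℕ => (q.1 : ℂ)) (𝓝 1 ×ˢ l) (𝓝 1) :=
    (Complex.continuous_ofReal.tendsto' 1 1 rfl).comp tendsto_fst
  have tv : ∀ z ∈ D, Tendsto (fun q : ℝ × ℕ => G q.2 z / q.1) (𝓝 1 ×ˢ l) (𝓝 (g z)) := fun z hz => by
    have := ((hG z hz).1.comp tendsto_snd).div t1 one_ne_zero
    rw [div_one] at this
    exact this
  have td : ∀ z ∈ D, Tendsto (fun q : ℝ × ℕ => ‖deriv (fun w => G q.2 w / q.1) z‖) (𝓝 1 ×ˢ l)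
      (𝓝 ‖deriv g z‖) := fun z hz => by
    have := (((hG z hz).2.comp tendsto_snd).div t1 one_ne_zero).norm
    rw [div_one] at this
    simp only [deriv_div_const]
    exact this
  have gg : Good (ball 0 1) (push g p) :=
    good_push hp B.inj (fun i => B.fm (hp.2.1 i)) fun i => B.fm (hp.2.2.1 i)
  have eg : ∀ᶠ q : ℝ × ℕ in 𝓝 1 ×ˢ l, Good (ball 0 1) (push (fun w => G q.2 w / q.1) p) := by
    filter_upwards [t1.eventually_ne one_ne_zero,
      eventually_all.2 fun i => (tv _ (hp.2.1 i)).eventually (isOpen_ball.mem_nhds (gg.2.1 i)),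
      eventually_all.2 fun i => (tv _ (hp.2.2.1 i)).eventually (isOpen_ball.mem_nhds (gg.2.2.1 i))]
      with q q0 q1 q2
    exact good_push hp (fun z hz w hw e => (hB q.2).1.inj ((hB q.2).2 (subset_closure hz))
      ((hB q.2).2 (subset_closure hw)) ((div_left_inj' q0).1 e)) q1 q2
  have tc : Tendsto (fun q : ℝ × ℕ => jac (fun w => G q.2 w / q.1) p *
      CD (ball 0 1) b (push (fun w => G q.2 w / q.1) p)) (𝓝 1 ×ˢ l)
      (𝓝 (jac g p * CD (ball 0 1) b (push g p))) := by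
    refine Tendsto.mul (Tendsto.mul (tendsto_finsetProd _ fun i _ =>
      (td _ (hp.2.1 i)).rpow_const (Or.inr (by norm_num)))
      (tendsto_finsetProd _ fun i _ => td _ (hp.2.2.1 i))) ?_
    exact (H.cont hb p.j (z := (fun i => g (p.x i), fun i => g (p.y i))) gg).tendsto.comp
      (f := fun q : ℝ × ℕ => (fun i => G q.2 (p.x i) / q.1, fun i => G q.2 (p.y i) / q.1))
      (tendsto_nhdsWithin_iff.2 ⟨(tendsto_pi_nhds.2 fun i => tv _ (hp.2.1 i)).prodMk_nhds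
        (tendsto_pi_nhds.2 fun i => tv _ (hp.2.2.1 i)), eg⟩)
  obtain ⟨pa, ha, pb, hb', hq⟩ := eventually_prod_iff.1 (eg.and (Metric.tendsto_nhds.1 tc ε hε))
  have ha' : ∀ᶠ t in 𝓝[<] (1 : ℝ), pa t ∧ t ∈ Ioo (0 : ℝ) 1 :=
    (ha.filter_mono nhdsWithin_le_nhds).and (Ioo_mem_nhdsLT one_pos)
  have key : ∀ t k, pa t → t ∈ Ioo (0 : ℝ) 1 → pb k → (IsConnected (lv (U k) (G k) t) ∧
      IsC1 (lv (U k) (G k) t)) ∧ Good (lv (U k) (G k) t) p ∧
      |CD (lv (U k) (G k) t) b p - jac g p * CD (ball 0 1) b (push g p)| < ε := by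
    intro t k h1 h2 h3
    obtain ⟨a1, a2⟩ := hq h1 h3
    have c1 := lv_conn (hB k).1 h2.1 h2.2
    have c2 := lv_c1 (hB k).1 h2.1 h2.2
    have m : ∀ z ∈ D, G k z / t ∈ ball (0 : ℂ) 1 → z ∈ lv (U k) (G k) t := fun z hz e => by
      rw [mem_ball_zero_iff, norm_div, Complex.norm_real, Real.norm_eq_abs, abs_of_pos h2.1,
        div_lt_one h2.1] at e
      exact ⟨(hB k).2 (subset_closure hz), e⟩
    have gp : Good (lv (U k) (G k) t) p := ⟨hp.1, fun i => m _ (hp.2.1 i) (a1.2.1 i),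
      fun i => m _ (hp.2.2.1 i) (a1.2.2.1 i), hp.2.2.2⟩
    refine ⟨⟨c1, c2⟩, gp, ?_⟩
    rw [H.cov _ b (nice_c1 c1 c2 hb) p gp _ _ (nice_ball 0 hb)
      (((hB k).1.fd.mono fun z hz => hz.1).div_const _) (lv_bij (hB k).1 h2.1 h2.2)]
    exact a2
  obtain ⟨r, r1, r2⟩ := ha'.exists
  obtain ⟨k, k1, k2⟩ := (hb'.and (hL r r2.2)).exists
  obtain ⟨z, hz, hm⟩ := hD.1.1.isCompact_closure.exists_isMaxOn hD.1.2.2.nonempty.closure
    (((hB k).1.fd.continuousOn.mono (hB k).2).norm)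
  obtain ⟨ρ, ⟨s1, s2⟩, s3⟩ := (ha'.and (Ioo_mem_nhdsLT
    (mem_ball_zero_iff.1 ((hB k).1.fm ((hB k).2 hz))))).exists
  exact ⟨_, _, (key r k r1 r2 k1).1, (key ρ k s1 s2 k1).1, k2, fun w hw =>
    ⟨(hB k).2 (subset_closure hw), lt_of_le_of_lt (hm (subset_closure hw)) s3.1⟩,
    (key r k r1 r2 k1).2.1, (key r k r1 r2 k1).2.2, (key ρ k s1 s2 k1).2.2⟩

/-- The sandwich. -/
theorem sandwich {lam β Z c : ℝ} {V : Finset Site → ℝ} (hV : IsPotential V) (hβ : 0 ≤ β)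
    (hf : ∀ A, 0 ≤ U1.cf J lam V A) (hb : StdBC b) (hm : p.m = 0) (hD : IsDom D)
    (hL : ∀ Q, IsConnected Q → IsC1 Q → Good Q p → Lim (inDom J lam V β Q b) p (Z * CD Q b p))
    (h : ∀ ε > 0, ∃ D₁ D₂, (IsConnected D₁ ∧ IsC1 D₁) ∧ (IsConnected D₂ ∧ IsC1 D₂) ∧ D₁ ⊆ D ∧
      D ⊆ D₂ ∧ Good D₁ p ∧ |CD D₁ b p - c| < ε ∧ |CD D₂ b p - c| < ε) :
    Lim (inDom J lam V β D b) p (Z * c) := by
  obtain ⟨s, hs, hM⟩ := mono_b hb p.n
  refine Metric.tendsto_nhds.2 fun ε hε => ?_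
  obtain ⟨D₁, D₂, c1, c2, i1, i2, g1, e1, e2⟩ := h (ε / 2 / (|Z| + 1)) (by positivity)
  have k : ∀ u : ℝ, |u - c| < ε / 2 / (|Z| + 1) → |Z * u - Z * c| < ε / 2 := fun u hu => by
    rw [← mul_sub, abs_mul]
    rw [lt_div_iff₀ (by positivity)] at hu
    nlinarith [abs_nonneg (u - c)]
  have f1 := abs_lt.1 (k _ e1)
  have f2 := abs_lt.1 (k _ e2)
  filter_upwards [hM p rfl hm J lam V β hV hβ hf D₁ D i1 hD.1 fun i => by
      rw [(c1_open c1.2).interior_eq]; exact g1.2.1 i,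
    hM p rfl hm J lam V β hV hβ hf D D₂ i2 c2.2.1 fun i => by
      rw [hD.2.1.interior_eq]; exact i1 (g1.2.1 i),
    Metric.tendsto_nhds.1 (hL D₁ c1.1 c1.2 g1) _ (half_pos hε),
    Metric.tendsto_nhds.1 (hL D₂ c2.1 c2.2 (good_mono (i1.trans i2) g1)) _ (half_pos hε)]
    with a m1 m2 d1 d2
  rw [Real.dist_eq, abs_lt] at d1 d2 ⊢
  rcases hs with rfl | rfl <;> constructor <;> linarith [d1.1, d1.2, d2.1, d2.2, f1.1, f1.2, f2.1,
    f2.2]

end Vale.Agent.N144J
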