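import Vale.Agent.N144J.Defs
import Vale.Agent.P153.R2.TOP.Sep
import Vale.Agent.P153.R2.L1.Rmt

/-!
Jordan domains are Carathéodory domains; simply connected neighbourhoods of the closure.
-/

namespace Vale.Agent.N144J

open Set Filter Topology Metric

theorem per_fract {c : ℝ → ℂ} (hp : Function.Periodic c 1) (t s : ℝ) :
    c (t + Int.fract (s - t)) = c s := by
  have := hp.sub_zsmul_eq (x := s) ⌊s - t⌋
  rw [← this, zsmul_eq_mul, mul_one]
  refine congrArg c ?_
  rw [← Int.self_sub_floor]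
  ring

theorem per_inj {c : ℝ → ℂ} (hp : Function.Periodic c 1) (hi : InjOn c (Ico 0 1)) (s t : ℝ)
    (e : c s = c t) (h : |s - t| < 1) : s = t := by
  have k : ∀ u : ℝ, c (Int.fract u) = c u := fun u => by
    have := hp.sub_zsmul_eq (x := u) ⌊u⌋
    rwa [zsmul_eq_mul, mul_one] at this
  have h1 := hi ⟨Int.fract_nonneg s, Int.fract_lt_one s⟩ ⟨Int.fract_nonneg t, Int.fract_lt_one t⟩
    (by rw [k, k, e])
  obtain ⟨z, hz⟩ := Int.fract_eq_fract.1 h1
  rw [hz] at h
  have h2 : |z| < 1 := by exact_mod_cast h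
  have h3 : z = 0 := Int.abs_lt_one_iff.1 h2
  rw [h3] at hz
  simpa [sub_eq_zero] using hz

/-- A nonempty open set off a Jordan curve with boundary on the curve has the curve as boundary. -/
theorem jordan_frontier {c : ℝ → ℂ} (hc : Continuous c) (hp : Function.Periodic c 1)
    (hi : InjOn c (Ico 0 1)) {W : Set ℂ} (hW : IsOpen W) (hn : W.Nonempty)
    (hd : Disjoint W (range c)) (hf : frontier W ⊆ range c) : range c ⊆ frontier W := by
  have inj := per_inj hp hi
  rintro _ ⟨t, rfl⟩
  by_contra ht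
  obtain ⟨δ, hδ, hb⟩ := Metric.eventually_nhds_iff.1
    (hc.continuousAt.eventually (isClosed_frontier.isOpen_compl.mem_nhds ht))
  obtain ⟨η, η0, η1, η2⟩ : ∃ η : ℝ, 0 < η ∧ η < δ ∧ η < 1 / 2 :=
    ⟨min (δ / 2) (1 / 4), by positivity, (min_le_left _ _).trans_lt (by linarith),
      (min_le_right _ _).trans_lt (by norm_num)⟩
  have hA := P153.TOP.isPathConnected_compl_arc (a := t + η) (b := t + 1 - η) hc.continuousOn
    (fun u hu v hv e => inj u v e (by
      rw [abs_lt]; constructor <;> linarith [hu.1, hu.2, hv.1, hv.2]))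
  have hfA : frontier W ⊆ c '' Icc (t + η) (t + 1 - η) := by
    intro z hz
    obtain ⟨s, rfl⟩ := hf hz
    set u := t + Int.fract (s - t) with hu
    have e : c u = c s := per_fract hp t s
    have f0 := Int.fract_nonneg (s - t)
    have f1 := Int.fract_lt_one (s - t)
    refine ⟨u, ⟨?_, ?_⟩, e⟩
    · by_contra h
      refine hb (y := u) ?_ (e ▸ hz)
      rw [Real.dist_eq, abs_lt]
      constructor <;> linarith [not_le.1 h]
    · by_contra h
      refine hb (y := u - 1) ?_ (by rw [hp.sub_eq, e]; exact hz)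
      rw [Real.dist_eq, abs_lt]
      constructor <;> linarith [not_le.1 h]
  have hsub : (c '' Icc (t + η) (t + 1 - η))ᶜ ⊆ W := by
    refine hA.isConnected.isPreconnected.subset_of_closure_inter_subset hW ?_ ?_
    · obtain ⟨w, hw⟩ := hn
      exact ⟨w, fun h => disjoint_left.1 hd hw (image_subset_range _ _ h), hw⟩
    · rintro z ⟨h1, h2⟩
      by_contra h3
      exact h2 (hfA (by rw [hW.frontier_eq]; exact ⟨h1, h3⟩))
  refine disjoint_left.1 hd (hsub ?_) (mem_range_self t)
  rintro ⟨u, hu, e⟩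
  have := inj u t e (by rw [abs_lt]; constructor <;> linarith [hu.1, hu.2])
  linarith [hu.1]

theorem far_unbounded (R : ℝ) : ¬ Bornology.IsBounded (closedBall (0 : ℂ) R)ᶜ := fun h =>
  NormedSpace.unbounded_univ ℝ ℂ (by
    rw [← union_compl_self (closedBall (0 : ℂ) R)]
    exact isBounded_closedBall.union h)

theorem far_mem {R : ℝ} (hR : 0 < R) : ((R + 1 : ℝ) : ℂ) ∈ (closedBall (0 : ℂ) R)ᶜ := by
  rw [mem_compl_iff, mem_closedBall_zero_iff, Complex.norm_real, Real.norm_eq_abs,
    abs_of_pos (by linarith)]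
  linarith

theorem IsJordan.cara {D : Set ℂ} (h : IsJordan D) : IsCara D := by
  obtain ⟨hD, c, hc, hp, hi, hf⟩ := h
  obtain ⟨R, hR, hb⟩ := hD.1.closure.subset_closedBall_lt 0 0
  have hs : (closedBall (0 : ℂ) R)ᶜ ⊆ (closure D)ᶜ := compl_subset_compl.2 hb
  have hW : IsOpen (connectedComponentIn (closure D)ᶜ ((R + 1 : ℝ) : ℂ)) :=
    isClosed_closure.isOpen_compl.connectedComponentIn
  have hd : Disjoint (connectedComponentIn (closure D)ᶜ ((R + 1 : ℝ) : ℂ)) (closure D) :=
    disjoint_left.2 fun z hz => connectedComponentIn_subset _ _ hz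
  refine ⟨hD, _, isPreconnected_connectedComponentIn, fun h => far_unbounded R (h.subset
    ((P153.TOP.isPreconnected_compl_closedBall 0 R).subset_connectedComponentIn (far_mem hR) hs)),
    hd, ?_⟩
  rw [hf]
  refine (jordan_frontier hc hp hi hW ⟨_, mem_connectedComponentIn (hs (far_mem hR))⟩
    (hd.mono_right (hf ▸ frontier_subset_closure)) fun z hz => ?_).trans frontier_subset_closure
  rw [← hf, hD.2.1.frontier_eq]
  exact ⟨P153.TOP.frontier_component_subset isClosed_closure _ hz, fun hzD =>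
    disjoint_left.1 ((hd.mono_right subset_closure).closure_left hD.2.1)
      (frontier_subset_closure hz) hzD⟩

/-- Filling the holes of a bounded connected open set. -/
theorem fill {T : Set ℂ} (hT : IsOpen T) (hc : IsConnected T) {R : ℝ} (hR : 0 < R)
    (hb : T ⊆ closedBall 0 R) : ∃ U : Set ℂ, IsOpen U ∧ P153.TOP.RMT.RDom U ∧ T ⊆ U ∧
      U ⊆ closedBall 0 R ∧ ∀ C : Set ℂ, IsPreconnected C → C ⊆ Tᶜ →
        (C ∩ (closedBall 0 R)ᶜ).Nonempty → Disjoint C U := by
  have hs : (closedBall (0 : ℂ) R)ᶜ ⊆ Tᶜ := compl_subset_compl.2 hb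
  have hF := P153.TOP.isPreconnected_compl_closedBall 0 R
  set A := connectedComponentIn Tᶜ ((R + 1 : ℝ) : ℂ) with hA
  have hAT : A ⊆ Tᶜ := connectedComponentIn_subset _ _
  have hFA : (closedBall (0 : ℂ) R)ᶜ ⊆ A := hF.subset_connectedComponentIn (far_mem hR) hs
  have hAc : IsClosed A := by
    rw [← closure_subset_iff_isClosed]
    exact isPreconnected_connectedComponentIn.closure.subset_connectedComponentIn
      (subset_closure (hFA (far_mem hR))) (closure_minimal hAT hT.isClosed_compl)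
  have key : ∀ C : Set ℂ, IsPreconnected C → C ⊆ Tᶜ → (C ∩ A).Nonempty → C ⊆ A :=
    fun C h1 h2 h3 => subset_union_left.trans
      ((IsPreconnected.union' h3 h1 isPreconnected_connectedComponentIn).subset_connectedComponentIn
        (Or.inr (hFA (far_mem hR))) (union_subset h2 hAT))
  have hTU : T ⊆ Aᶜ := subset_compl_comm.1 hAT
  obtain ⟨z₀, hz₀⟩ := hc.nonempty
  have hU : IsPreconnected Aᶜ := by
    refine isPreconnected_of_forall z₀ fun y hy => ?_
    by_cases hyT : y ∈ T
    · exact ⟨T, hTU, hz₀, hyT, hc.isPreconnected⟩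
    set C := connectedComponentIn Tᶜ y with hC
    have hCT : C ⊆ Tᶜ := connectedComponentIn_subset _ _
    have hyC : y ∈ C := mem_connectedComponentIn hyT
    have hCA : C ⊆ Aᶜ := fun z hz hzA =>
      hy (key C isPreconnected_connectedComponentIn hCT ⟨z, hz, hzA⟩ hyC)
    have hCc : IsClosed C := by
      rw [← closure_subset_iff_isClosed]
      exact isPreconnected_connectedComponentIn.closure.subset_connectedComponentIn
        (subset_closure hyC) (closure_minimal hCT hT.isClosed_compl)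
    obtain ⟨z, hzC, hz⟩ : ∃ z ∈ C, z ∈ closure T := by
      by_contra hn
      have ho : IsOpen C := by
        refine isOpen_iff_mem_nhds.2 fun z hz => ?_
        obtain ⟨r, hr, hB⟩ := Metric.isOpen_iff.1 isClosed_closure.isOpen_compl z
          fun h => hn ⟨z, hz, h⟩
        refine mem_of_superset (ball_mem_nhds z hr) ?_
        rw [hC, connectedComponentIn_eq hz]
        exact (convex_ball z r).isPreconnected.subset_connectedComponentIn (mem_ball_self hr)
          (hB.trans (compl_subset_compl.2 subset_closure))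
      have := IsClopen.eq_univ ⟨hCc, ho⟩ ⟨y, hyC⟩
      exact hCT (this ▸ mem_univ z₀) hz₀
    refine ⟨insert z T ∪ C, union_subset (insert_subset (hCA hzC) hTU) hCA,
      Or.inl (Or.inr hz₀), Or.inr hyC, IsPreconnected.union' ⟨z, Or.inl rfl, hzC⟩
        (hc.isPreconnected.subset_closure (subset_insert _ _) (insert_subset hz subset_closure))
        isPreconnected_connectedComponentIn⟩
  refine ⟨Aᶜ, hAc.isOpen_compl, ⟨⟨⟨z₀, hTU hz₀⟩, hU⟩, P153.TOP.hasLogOn_of_noBdd
    hAc.isOpen_compl hU fun z hz => ⟨A, isPreconnected_connectedComponentIn, not_not.1 hz,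
      by rw [compl_compl], fun h => far_unbounded R (h.subset hFA)⟩⟩, hTU,
    compl_subset_comm.1 hFA, fun C h1 h2 h3 => ?_⟩
  exact disjoint_compl_right_iff_subset.2 (key C h1 h2 (h3.mono (inter_subset_inter_right _ hFA)))

/-- Simply connected neighbourhoods of the closure which finally avoid every point of `W`. -/
theorem exists_nbhd {D W : Set ℂ} (hD : IsDom D) (h1 : IsPreconnected W)
    (h2 : ¬ Bornology.IsBounded W) (h3 : Disjoint W (closure D)) :
    ∃ (R : ℝ) (U : ℕ → Set ℂ), 0 < R ∧ (∀ k, IsOpen (U k) ∧ P153.TOP.RMT.RDom (U k) ∧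
      closure D ⊆ U k ∧ U k ⊆ closedBall 0 R) ∧ ∀ w ∈ W, ∀ᶠ k in atTop, w ∉ U k := by
  obtain ⟨R, hR, hb⟩ := hD.1.closure.subset_closedBall_lt 0 0
  have hK : IsConnected (closure D) := hD.2.2.closure
  have hpos : ∀ k : ℕ, (0 : ℝ) < 1 / ((k : ℝ) + 1) := fun k => by positivity
  have hT : ∀ k : ℕ, IsConnected (thickening (1 / ((k : ℝ) + 1)) (closure D)) := fun k => by
    obtain ⟨z₀, hz₀⟩ := hK.nonempty
    refine ⟨⟨z₀, self_subset_thickening (hpos k) _ hz₀⟩, isPreconnected_of_forall z₀ fun y hy => ?_⟩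
    obtain ⟨z, hz, hyz⟩ := mem_thickening_iff.1 hy
    exact ⟨closure D ∪ ball z (1 / ((k : ℝ) + 1)), union_subset (self_subset_thickening (hpos k) _)
      (ball_subset_thickening hz _), Or.inl hz₀, Or.inr hyz,
      IsPreconnected.union' ⟨z, hz, mem_ball_self (hpos k)⟩ hK.isPreconnected
        (convex_ball _ _).isPreconnected⟩
  have hB : ∀ k : ℕ, thickening (1 / ((k : ℝ) + 1)) (closure D) ⊆ closedBall 0 (R + 1) := fun k y hy => by
    obtain ⟨z, hz, hyz⟩ := mem_thickening_iff.1 hy
    have a := mem_closedBall.1 (hb hz)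
    have b : 1 / ((k : ℝ) + 1) ≤ 1 := by
      rw [div_le_one (by positivity)]
      linarith [Nat.cast_nonneg (α := ℝ) k]
    rw [mem_closedBall]
    linarith [dist_triangle y z 0]
  choose U hU using fun k : ℕ => fill isOpen_thickening (hT k) (by linarith : 0 < R + 1) (hB k)
  refine ⟨R + 1, U, by linarith, fun k => ⟨(hU k).1, (hU k).2.1,
    (self_subset_thickening (hpos k) _).trans (hU k).2.2.1, (hU k).2.2.2.1⟩, fun w hw => ?_⟩
  obtain ⟨q, hq, hqR⟩ : ∃ q ∈ W, q ∉ closedBall (0 : ℂ) (R + 1) := by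
    by_contra hn
    exact h2 (isBounded_closedBall.subset fun q hq => by_contra fun h => hn ⟨q, hq, h⟩)
  obtain ⟨γ, hγ⟩ := P153.TOP.joinedIn_of_preconnected isClosed_closure.isOpen_compl h1
    (disjoint_left.1 h3) hw hq
  have hc : IsCompact (range γ) := isCompact_range γ.continuous
  obtain ⟨δ, hδ, hd⟩ := hc.exists_thickening_subset_open isClosed_closure.isOpen_compl
    (by rintro _ ⟨t, rfl⟩; exact hγ t)
  filter_upwards [tendsto_one_div_add_atTop_nhds_zero_nat.eventually (gt_mem_nhds hδ)] with k hk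
  refine disjoint_left.1 ((hU k).2.2.2.2 (range γ) (isPreconnected_range γ.continuous)
    (fun y hy hyT => ?_) ⟨q, ⟨1, γ.target⟩, hqR⟩) ⟨0, γ.source⟩
  obtain ⟨z, hz, hyz⟩ := mem_thickening_iff.1 hyT
  exact hd (mem_thickening_iff.2 ⟨y, hy, by rw [dist_comm]; exact hyz.trans hk⟩) hz

end Vale.Agent.N144J
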